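import Vale.Agent.P011.H722.Mean

/-!
# NE: the output of P9, and the passage to an invariant mean (M5)

`NE c P HS Tk`: for finitely many tests `(h, b, ρ, a, a')`, `h ∈ HS`, `ρ ∈ P`, and `ε > 0` there is
a mean `l` on the set `X` of points for which the law of the pair `(c (h x), c (Tk b (h x)))` is
invariant under the simultaneous conjugation by `ρ` up to `ε`.
-/

namespace Vale.Agent.P011.H966

open Vale.Agent.P011.H722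

/-- the output of P9 -/
def NE {X k Q : Type*} [Group Q] (c : X → Q) (P : Subgroup Q) (HS : Set (Equiv.Perm X))
    (Tk : k → Equiv.Perm X) : Prop :=
  ∀ (n : ℕ) (h : Fin n → Equiv.Perm X) (b : Fin n → k) (ρ a a' : Fin n → Q),
    (∀ j, h j ∈ HS) → (∀ j, ρ j ∈ P) → ∀ ε : ℝ, 0 < ε →
    ∃ l : (X → ℝ) → ℝ, IsMean l ∧ ∀ j,
      |mset l {x | c (h j x) = ρ j * a j * (ρ j)⁻¹ ∧
          c (Tk (b j) (h j x)) = ρ j * a' j * (ρ j)⁻¹} -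
        mset l {x | c (h j x) = a j ∧ c (Tk (b j) (h j x)) = a' j}| ≤ ε

/-- **From NE to an invariant mean** (P9 + P5). -/
theorem mean_of_NE {X k Q : Type*} [Group Q] {c : X → Q} {P : Subgroup Q}
    {HS : Set (Equiv.Perm X)} {Tk : k → Equiv.Perm X} (hNE : NE c P HS Tk)
    (PE : Subgroup (Equiv.Perm X)) [Group.IsSolvable PE]
    (hHS : ∀ h ∈ HS, ∀ π ∈ PE, h * π ∈ HS) :
    ∃ l : (X → ℝ) → ℝ, IsMean l ∧ (∀ π ∈ PE, ∀ F : X → ℝ, l (fun x => F (π x)) = l F) ∧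
      ∀ h ∈ HS, ∀ b, ∀ ρ ∈ P, ∀ a a' : Q,
        mset l {x | c (h x) = ρ * a * ρ⁻¹ ∧ c (Tk b (h x)) = ρ * a' * ρ⁻¹}
        = mset l {x | c (h x) = a ∧ c (Tk b (h x)) = a'} := by
  classical
  let I : Type _ := HS × k × P × Q × Q
  let Φ : I → X → ℝ := fun i =>
    ({x | c (i.1.1 x) = i.2.2.1.1 * i.2.2.2.1 * (i.2.2.1.1)⁻¹ ∧
      c (Tk i.2.1 (i.1.1 x)) = i.2.2.1.1 * i.2.2.2.2 * (i.2.2.1.1)⁻¹} : Set X).indicator 1 -
    ({x | c (i.1.1 x) = i.2.2.2.1 ∧ c (Tk i.2.1 (i.1.1 x)) = i.2.2.2.2} : Set X).indicator 1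
  have hstab : ∀ (g : PE) (i : I), ∃ j, ∀ x, Φ i (g • x) = Φ j x := fun g i =>
    ⟨(⟨i.1.1 * g.1, hHS _ i.1.2 _ g.2⟩, i.2), fun x => rfl⟩
  have happ : ∀ (s : Finset I) (ε : ℝ), 0 < ε → ∃ l, IsMean l ∧ ∀ i ∈ s, |l (Φ i)| ≤ ε := by
    intro s ε hε
    let e := s.equivFin
    obtain ⟨l, hl, hle⟩ := hNE s.card (fun j => (e.symm j).1.1.1) (fun j => (e.symm j).1.2.1)
      (fun j => (e.symm j).1.2.2.1.1) (fun j => (e.symm j).1.2.2.2.1)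
      (fun j => (e.symm j).1.2.2.2.2) (fun j => (e.symm j).1.1.2) (fun j => (e.symm j).1.2.2.1.2)
      ε hε
    refine ⟨l, hl, fun i hi => ?_⟩
    have h1 := hle (e ⟨i, hi⟩)
    simp only [Equiv.symm_apply_apply] at h1
    change |l (_ - _)| ≤ ε
    rw [hl.sub (Bdd.indicator _) (Bdd.indicator _)]
    exact h1
  obtain ⟨l, hl, hinv, h0⟩ := exists_invariant_mean (G := PE) (X := X) Φ
    (fun i => (Bdd.indicator _).sub (Bdd.indicator _)) hstab happ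
  refine ⟨l, hl, fun π hπ F => hinv ⟨π, hπ⟩ F, fun h hh b ρ hρ a a' => ?_⟩
  have h1 := h0 (⟨h, hh⟩, b, ⟨ρ, hρ⟩, a, a')
  change l (_ - _) = 0 at h1
  rw [hl.sub (Bdd.indicator _) (Bdd.indicator _), sub_eq_zero] at h1
  exact h1

/-- the form used by `H73.Gns.line_perm`: `HS = {Lt b₀ π, (Lt b₀)⁻¹ π}` -/
theorem hmean_of_NE {X k Q : Type*} [Group Q] {c : X → Q} {P : Subgroup Q}
    {Tk : k → Equiv.Perm X} (PE : Subgroup (Equiv.Perm X)) [Group.IsSolvable PE]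
    (Lt : Equiv.Perm X)
    (hNE : NE c P {h | ∃ π ∈ PE, h = Lt * π ∨ h = Lt⁻¹ * π} Tk) :
    ∃ l : (X → ℝ) → ℝ, IsMean l ∧
      (∀ π ∈ PE, ∀ F : X → ℝ, Bdd F → l (fun x => F (π x)) = l F) ∧
      (∀ b, ∀ ρ ∈ P, ∀ a a' : Q,
        mset l {x | c (Lt x) = ρ * a * ρ⁻¹ ∧ c (Tk b (Lt x)) = ρ * a' * ρ⁻¹}
        = mset l {x | c (Lt x) = a ∧ c (Tk b (Lt x)) = a'}) ∧
      (∀ b, ∀ ρ ∈ P, ∀ a a' : Q,
        mset l {x | c (Lt⁻¹ x) = ρ * a * ρ⁻¹ ∧ c (Tk b (Lt⁻¹ x)) = ρ * a' * ρ⁻¹}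
        = mset l {x | c (Lt⁻¹ x) = a ∧ c (Tk b (Lt⁻¹ x)) = a'}) := by
  obtain ⟨l, hl, h1, h2⟩ := mean_of_NE hNE PE (by
    rintro h ⟨π, hπ, h3⟩ π' hπ'
    refine ⟨π * π', PE.mul_mem hπ hπ', ?_⟩
    rcases h3 with rfl | rfl
    · exact Or.inl (mul_assoc _ _ _)
    · exact Or.inr (mul_assoc _ _ _))
  refine ⟨l, hl, fun π hπ F _ => h1 π hπ F, fun b ρ hρ a a' => ?_, fun b ρ hρ a a' => ?_⟩
  · exact h2 Lt ⟨1, PE.one_mem, Or.inl (mul_one _).symm⟩ b ρ hρ a a'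
  · exact h2 Lt⁻¹ ⟨1, PE.one_mem, Or.inr (mul_one _).symm⟩ b ρ hρ a a'

end Vale.Agent.P011.H966
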