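import Vale.Agent.P011.H966.TransLim
import Vale.Agent.P011.H966.NE

/-!
# From the local data to NE (general half of M8)

`Loc c P Tk X1 WW` : everything which has to be known at one finite set of places; `ne_of_loc`:
if for finitely many `h j ∈ HS` there is such a set of places with all `h j` in `WW`, and a common
base point, then `NE c P HS Tk`.  No ring, no characteristic.
-/

namespace Vale.Agent.P011.H966

open Filter Topology Set
open scoped CompactlySupported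
open Vale.Agent.P011.H722

universe w

/-- The local data used for `NE`: a position map `pos` into a locally compact Hausdorff space `G`,
a denominator `den`, an open set `X0` of positions containing the positions of `X1`, the upper
bound, the lower bound at the points of `X1`, the asymptotic equality of the weights of conjugate
level sets of the pair `(c y, c (Tk b y))`, and the goodness of the maps in `WW`. -/
def Loc {X k Q : Type*} [Group Q] (c : X → Q) (P : Subgroup Q) (Tk : k → Equiv.Perm X)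
    (X1 : Set X) (WW : Set (Equiv.Perm X)) : Prop :=
  ∃ (G : Type w) (_ : TopologicalSpace G) (_ : T2Space G) (_ : LocallyCompactSpace G)
    (pos : X → G) (den : X → ℝ) (X0 : Set G),
    (∀ y, 0 < den y) ∧ IsOpen X0 ∧ (∀ y ∈ X1, pos y ∈ X0) ∧
    (∀ K : Set G, IsCompact K → ∃ C : ℝ, ∀ᶠ x in 𝓝[>] (1 : ℝ),
      Summable (fun y => (x - 1) * den y ^ (-x) * K.indicator 1 (pos y)) ∧
      ∑' y, (x - 1) * den y ^ (-x) * K.indicator 1 (pos y) ≤ C) ∧
    (∀ x0 ∈ X1, ∀ V : Set G, IsOpen V → pos x0 ∈ V → ∃ c > 0, ∀ᶠ x in 𝓝[>] (1 : ℝ),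
      ∃ F : Finset X, (∀ y ∈ F, pos y ∈ V) ∧ c ≤ ∑ y ∈ F, (x - 1) * den y ^ (-x)) ∧
    (∀ b, ∀ ρ ∈ P, ∀ a a' : Q, ∀ φ : C_c(G, ℝ), tsupport φ ⊆ X0 → Tendsto (fun x : ℝ =>
      ∑' y, (x - 1) * den y ^ (-x) *
        ({y | c y = a ∧ c (Tk b y) = a'}.indicator 1 y * φ (pos y)) -
      ∑' y, (x - 1) * den y ^ (-x) *
        ({y | c y = ρ * a * ρ⁻¹ ∧ c (Tk b y) = ρ * a' * ρ⁻¹}.indicator 1 y * φ (pos y)))
      (𝓝[>] 1) (𝓝 0)) ∧
    (∀ g ∈ WW, ∀ y, Good pos den g y)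

/-- **M8, general half.** -/
theorem ne_of_loc {X k Q : Type*} [Group Q] {c : X → Q} {P : Subgroup Q}
    {Tk : k → Equiv.Perm X} {X1 : Set X} {HS : Set (Equiv.Perm X)}
    (hbase : ∀ (n : ℕ) (h : Fin n → Equiv.Perm X), (∀ j, h j ∈ HS) →
      ∃ x0 ∈ X1, ∀ j, h j x0 ∈ X1)
    (hloc : ∀ (n : ℕ) (h : Fin n → Equiv.Perm X), (∀ j, h j ∈ HS) →
      ∃ WW : Set (Equiv.Perm X), (∀ j, h j ∈ WW) ∧ Loc.{w} c P Tk X1 WW) :
    NE c P HS Tk := by
  intro n h b ρ a a' hh hρ ε hε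
  obtain ⟨x0, hx0, hx0'⟩ := hbase n h hh
  obtain ⟨WW, hWW, G, _, _, _, pos, den, X0, hden, hX0, hX, hup, hlow, hlim, hgood⟩ :=
    hloc n h hh
  obtain ⟨F, w, hw0, hw1, hw⟩ := exists_finite_law hden hup
    (fun j => {y | c y = a j ∧ c (Tk (b j) y) = a' j})
    (fun j => {y | c y = ρ j * a j * (ρ j)⁻¹ ∧ c (Tk (b j) y) = ρ j * a' j * (ρ j)⁻¹})
    h hX0 x0 (fun j => hgood _ (hWW j) x0) (fun j => hX _ (hx0' j)) (hlow x0 hx0)
    (fun j φ hφ => hlim (b j) (ρ j) (hρ j) (a j) (a' j) φ hφ) hε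
  refine ⟨fun f => ∑ x ∈ F, w x * f x, isMean_finset F w (fun x _ => hw0 x) hw1, fun j => ?_⟩
  have h1 := hw j
  unfold mset
  rw [abs_sub_comm, ← Finset.sum_sub_distrib]
  refine le_trans (le_of_eq ?_) h1
  congr 1
  refine Finset.sum_congr rfl fun y _ => ?_
  rw [← mul_sub]
  rfl

end Vale.Agent.P011.H966
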