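import Vale.Agent.P011.H966.Trans

/-!
# Transport of weighted point sets under local homeomorphisms, main theorem
-/

namespace Vale.Agent.P011.H966

open Filter Topology Set
open scoped CompactlySupported

section Push

variable {G : Type*} [TopologicalSpace G] [T2Space G]

open Classical in
/-- extension by zero of `f ∘ H.symm` -/
noncomputable def pushC (H : OpenPartialHomeomorph G G) (f : G → ℝ) (K : Set G) (hK : IsCompact K)
    (hKs : K ⊆ H.source) (hf : ContinuousOn f H.source) (hf0 : ∀ g, g ∉ K → f g = 0) :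
    C_c(G, ℝ) where
  toFun g := if g ∈ H.target then f (H.symm g) else 0
  continuous_toFun := by
    have hKc : IsCompact (H '' K) := hK.image_of_continuousOn (H.continuousOn.mono hKs)
    rw [continuous_iff_continuousAt]
    intro g
    by_cases hg : g ∈ H.target
    · have h1 : ContinuousAt (fun g => f (H.symm g)) g := by
        have h2 := (H.continuousOn_symm.continuousAt (H.open_target.mem_nhds hg))
        have h3 := hf.continuousAt (H.open_source.mem_nhds (H.map_target hg))
        exact ContinuousAt.comp (g := f) h3 h2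
      refine h1.congr ?_
      filter_upwards [H.open_target.mem_nhds hg] with g' hg'
      rw [if_pos hg']
    · have h1 : g ∈ (H '' K)ᶜ := by
        rintro ⟨g', hg', rfl⟩
        exact hg (H.map_source (hKs hg'))
      have h2 : ContinuousAt (fun _ : G => (0 : ℝ)) g := continuousAt_const
      refine h2.congr ?_
      filter_upwards [hKc.isClosed.isOpen_compl.mem_nhds h1] with g' hg'
      split_ifs with h3
      · rw [hf0]
        intro h4
        exact hg' ⟨_, h4, H.right_inv h3⟩
      · rfl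
  hasCompactSupport' := by
    have hKc : IsCompact (H '' K) := hK.image_of_continuousOn (H.continuousOn.mono hKs)
    refine HasCompactSupport.intro hKc fun g hg => ?_
    split_ifs with h3
    · rw [hf0]
      intro h4
      exact hg ⟨_, h4, H.right_inv h3⟩
    · rfl

variable {H : OpenPartialHomeomorph G G} {f : G → ℝ} {K : Set G} (hK : IsCompact K)
    (hKs : K ⊆ H.source) (hf : ContinuousOn f H.source) (hf0 : ∀ g, g ∉ K → f g = 0)

open Classical in
theorem pushC_apply (g : G) :
    pushC H f K hK hKs hf hf0 g = if g ∈ H.target then f (H.symm g) else 0 := rfl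

theorem tsupport_pushC : tsupport (pushC H f K hK hKs hf hf0) ⊆ H '' K := by
  have hKc : IsCompact (H '' K) := hK.image_of_continuousOn (H.continuousOn.mono hKs)
  refine closure_minimal ?_ hKc.isClosed
  intro g hg
  rw [Function.mem_support, pushC_apply] at hg
  split_ifs at hg with h
  · by_contra hcon
    refine hg (hf0 _ fun h4 => hcon ⟨_, h4, H.right_inv h⟩)
  · exact absurd rfl hg

end Push

section Pert

variable {G : Type*} [TopologicalSpace G]

/-- `m ^ x → m` uniformly on compact sets as `x → 1` -/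
theorem rpow_unif {m : G → ℝ} {S K : Set G} (hS : IsOpen S) (hm : ContinuousOn m S)
    (hpos : ∀ g ∈ S, 0 < m g) (hK : IsCompact K) (hKS : K ⊆ S) {δ : ℝ} (hδ : 0 < δ) :
    ∀ᶠ x in 𝓝 (1 : ℝ), ∀ g ∈ K, |m g ^ x - m g| ≤ δ := by
  refine hK.eventually_forall_of_forall_eventually (P := fun x g => |m g ^ x - m g| ≤ δ) ?_
  intro g hg
  have h1 : ContinuousAt m g := hm.continuousAt (hS.mem_nhds (hKS hg))
  have h2 : ContinuousAt (fun p : ℝ × G => |m p.2 ^ p.1 - m p.2|) ((1 : ℝ), g) := by
    have h3 : ContinuousAt (fun p : ℝ × G => m p.2) ((1 : ℝ), g) :=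
      ContinuousAt.comp (g := m) (f := fun p : ℝ × G => p.2) h1 continuousAt_snd
    have h4 : ContinuousAt (fun p : ℝ × G => m p.2 ^ p.1) ((1 : ℝ), g) :=
      h3.rpow continuousAt_fst (Or.inl (hpos g (hKS hg)).ne')
    exact (h4.sub h3).abs
  have h5 : |m g ^ (1 : ℝ) - m g| < δ := by
    rw [Real.rpow_one, sub_self, abs_zero]
    exact hδ
  have h6 := h2.eventually (gt_mem_nhds h5)
  exact h6.mono fun p hp => hp.le

end Pert

section Main

/-- perturbation of a weighted sum -/
theorem pert {Om : Type*} {W I a b : Om → ℝ} (hW : ∀ y, 0 ≤ W y)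
    (hs : Summable fun y => W y * I y) {M δ : ℝ} (ha : ∀ z, |a z| ≤ M * I z)
    (hab : ∀ z, |b z - a z| ≤ δ * I z) :
    Summable (fun y => W y * a y) ∧ Summable (fun y => W y * b y) ∧
      |∑' y, W y * b y - ∑' y, W y * a y| ≤ δ * ∑' y, W y * I y := by
  have h1 : Summable (fun y => W y * a y) := by
    refine Summable.of_norm_bounded (hs.mul_left M) fun y => ?_
    rw [Real.norm_eq_abs, abs_mul, abs_of_nonneg (hW y)]
    calc W y * |a y| ≤ W y * (M * I y) := mul_le_mul_of_nonneg_left (ha y) (hW y)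
      _ = _ := by ring
  have h2 : Summable (fun y => W y * (b y - a y)) := by
    refine Summable.of_norm_bounded (hs.mul_left δ) fun y => ?_
    rw [Real.norm_eq_abs, abs_mul, abs_of_nonneg (hW y)]
    calc W y * |b y - a y| ≤ W y * (δ * I y) := mul_le_mul_of_nonneg_left (hab y) (hW y)
      _ = _ := by ring
  have h3 : Summable (fun y => W y * b y) := by
    refine (h1.add h2).congr fun y => ?_
    ring
  refine ⟨h1, h3, ?_⟩
  rw [← h3.tsum_sub h1, ← tsum_mul_left]
  refine (norm_tsum_le_tsum_norm (h3.sub h1).norm).trans ?_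
  refine Summable.tsum_le_tsum (fun y => ?_) (h3.sub h1).norm (hs.mul_left δ)
  rw [Real.norm_eq_abs, ← mul_sub, abs_mul, abs_of_nonneg (hW y)]
  calc W y * |b y - a y| ≤ W y * (δ * I y) := mul_le_mul_of_nonneg_left (hab y) (hW y)
    _ = _ := by ring

variable {Om G : Type*} [TopologicalSpace G]

/-- the transported weights -/
theorem transport_eq {pos : Om → G} {den : Om → ℝ} (hden : ∀ y, 0 < den y)
    {h : Equiv.Perm Om} {H : OpenPartialHomeomorph G G} {m : G → ℝ}
    (hm : ∀ g ∈ H.source, 0 < m g)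
    (h4 : ∀ z, pos z ∈ H.source → pos (h z) = H (pos z) ∧ den (h z) = m (pos z) * den z)
    (h5 : ∀ z, pos z ∈ H.target → pos (h.symm z) ∈ H.source)
    (ψ : G → ℝ) (hψ : ∀ g, g ∉ H.source → ψ g = 0) (A : Set Om) (x : ℝ) :
    ∑' y, (x - 1) * den y ^ (-x) * (ψ (pos y) * A.indicator 1 (h y)) =
      ∑' z, (x - 1) * den z ^ (-x) * (A.indicator 1 z *
        (open Classical in if pos z ∈ H.target then ψ (H.symm (pos z)) * m (H.symm (pos z)) ^ x
          else 0)) := by
  classical
  rw [← h.tsum_eq (fun z => (x - 1) * den z ^ (-x) * (A.indicator 1 z *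
        (if pos z ∈ H.target then ψ (H.symm (pos z)) * m (H.symm (pos z)) ^ x
          else 0)))]
  refine tsum_congr fun y => ?_
  by_cases hy : pos y ∈ H.source
  · obtain ⟨e1, e2⟩ := h4 y hy
    have h6 : pos (h y) ∈ H.target := by
      rw [e1]
      exact H.map_source hy
    rw [if_pos h6, e1, H.left_inv hy, e2, Real.mul_rpow (hm _ hy).le (hden y).le,
      Real.rpow_neg (hm _ hy).le]
    have h7 : m (pos y) ^ x ≠ 0 := (Real.rpow_pos_of_pos (hm _ hy) x).ne'
    field_simp
  · have h6 : pos (h y) ∉ H.target := by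
      intro h7
      have h8 := h5 _ h7
      rw [Equiv.symm_apply_apply] at h8
      exact hy h8
    rw [if_neg h6, hψ _ hy]
    ring

variable [T2Space G] [LocallyCompactSpace G]

/-- **Finitely supported laws with asymptotic symmetries** (abstract NONEMPTY). -/
theorem exists_finite_law {pos : Om → G} {den : Om → ℝ} (hden : ∀ y, 0 < den y)
    (hup : ∀ K : Set G, IsCompact K → ∃ C : ℝ, ∀ᶠ x in 𝓝[>] (1 : ℝ),
      Summable (fun y => (x - 1) * den y ^ (-x) * K.indicator 1 (pos y)) ∧
      ∑' y, (x - 1) * den y ^ (-x) * K.indicator 1 (pos y) ≤ C)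
    {J : Type*} [Finite J] (A B : J → Set Om) (h : J → Equiv.Perm Om) {X0 : Set G}
    (hX0 : IsOpen X0) (x0 : Om) (hgood : ∀ j, Good pos den (h j) x0)
    (hx0 : ∀ j, pos (h j x0) ∈ X0)
    (hlow : ∀ V : Set G, IsOpen V → pos x0 ∈ V → ∃ c > 0, ∀ᶠ x in 𝓝[>] (1 : ℝ),
      ∃ F : Finset Om, (∀ y ∈ F, pos y ∈ V) ∧ c ≤ ∑ y ∈ F, (x - 1) * den y ^ (-x))
    (hlim : ∀ j, ∀ φ : C_c(G, ℝ), tsupport φ ⊆ X0 → Tendsto (fun x : ℝ =>
      ∑' y, (x - 1) * den y ^ (-x) * ((A j).indicator 1 y * φ (pos y)) -
      ∑' y, (x - 1) * den y ^ (-x) * ((B j).indicator 1 y * φ (pos y))) (𝓝[>] 1) (𝓝 0))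
    {ε : ℝ} (hε : 0 < ε) :
    ∃ (F : Finset Om) (w : Om → ℝ), (∀ y, 0 ≤ w y) ∧ ∑ y ∈ F, w y = 1 ∧
      ∀ j, |∑ y ∈ F, w y * ((A j).indicator 1 (h j y) - (B j).indicator 1 (h j y))| ≤ ε := by
  classical
  choose H m g1 g2 g3 g4 g5 using hgood
  set V0 : Set G := ⋂ j, (H j).source ∩ (H j) ⁻¹' X0 with hV0
  have hV0o : IsOpen V0 := isOpen_iInter_of_finite fun j => (H j).isOpen_inter_preimage hX0
  have hpV0 : pos x0 ∈ V0 := mem_iInter.2 fun j => ⟨g1 j, by
    rw [mem_preimage, ← (g4 j x0 (g1 j)).1]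
    exact hx0 j⟩
  obtain ⟨ψ, hψ1, hψc, hψs, hψ01⟩ := exists_continuousMap_one_of_isCompact_subset_isOpen
    (isCompact_singleton (x := pos x0)) hV0o (singleton_subset_iff.2 hpV0)
  set K := tsupport ψ with hK
  have hKsrc : ∀ j, K ⊆ (H j).source := fun j g hg => (mem_iInter.1 (hψs hg) j).1
  have hψ0 : ∀ g, g ∉ K → ψ g = 0 := fun g hg => image_eq_zero_of_notMem_tsupport hg
  -- the test functions
  let φ : J → C_c(G, ℝ) := fun j => pushC (H j) (fun g => ψ g * m j g) K hψc (hKsrc j)
    (ψ.continuous.continuousOn.mul (g2 j)) (fun g hg => by rw [hψ0 g hg, zero_mul])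
  have hφs : ∀ j, tsupport (φ j) ⊆ X0 := by
    intro j
    refine (tsupport_pushC _ _ _ _).trans ?_
    rintro _ ⟨g, hg, rfl⟩
    exact (mem_iInter.1 (hψs hg) j).2
  have hφa : ∀ j g, φ j g = if g ∈ (H j).target then ψ ((H j).symm g) * m j ((H j).symm g) else 0 :=
    fun j g => rfl
  have hHK : ∀ j, IsCompact (H j '' K) := fun j =>
    hψc.image_of_continuousOn ((H j).continuousOn.mono (hKsrc j))
  -- constants
  obtain ⟨c, hc, hlow'⟩ := hlow {g | 1 / 2 < ψ g} (isOpen_lt continuous_const ψ.continuous) (by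
    have : ψ (pos x0) = 1 := hψ1 (mem_singleton _)
    rw [mem_ofPred_eq, this]
    norm_num)
  obtain ⟨CK, hCK⟩ := hup K hψc
  choose C hC using fun j => hup (H j '' K) (hHK j)
  -- asymptotic equality of the transported weights
  have hdiff : ∀ j, ∀ᶠ x in 𝓝[>] (1 : ℝ),
      |∑' y, (x - 1) * den y ^ (-x) * (ψ (pos y) * (A j).indicator 1 (h j y)) -
        ∑' y, (x - 1) * den y ^ (-x) * (ψ (pos y) * (B j).indicator 1 (h j y))| < ε * (c / 2) := by
    intro j
    have hC0 : 0 < 1 + |C j| := by positivity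
    set δ : ℝ := ε * c / (8 * (1 + |C j|)) with hδ
    have hδ0 : 0 < δ := by positivity
    have e1 : ∀ᶠ x in 𝓝[>] (1 : ℝ), ∀ g ∈ K, |m j g ^ x - m j g| ≤ δ :=
      nhdsWithin_le_nhds (rpow_unif (H j).open_source (g2 j) (g3 j) hψc (hKsrc j) hδ0)
    have e2 := (hlim j (φ j) (hφs j)).eventually (Metric.ball_mem_nhds 0
      (show 0 < ε * c / 8 by positivity))
    have hM : ∃ M : ℝ, ∀ g, |φ j g| ≤ M := by
      obtain ⟨M, hM⟩ := (φ j).hasCompactSupport.exists_bound_of_continuous (φ j).continuous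
      exact ⟨M, hM⟩
    obtain ⟨M, hM⟩ := hM
    filter_upwards [e1, e2, hC j, self_mem_nhdsWithin] with x hx1 hx2 hx3 hx4
    replace hx4 : 1 < x := hx4
    have hW : ∀ y, 0 ≤ (x - 1) * den y ^ (-x) := fun y =>
      mul_nonneg (by linarith) (Real.rpow_pos_of_pos (hden y) _).le
    have key : ∀ S : Set Om, |∑' y, (x - 1) * den y ^ (-x) * (ψ (pos y) * S.indicator 1 (h j y)) -
        ∑' y, (x - 1) * den y ^ (-x) * (S.indicator 1 y * φ j (pos y))| ≤ δ * |C j| := by
      intro S
      rw [transport_eq hden (g3 j) (g4 j) (g5 j) ψ (fun g hg => hψ0 g fun hg' =>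
        hg (hKsrc j hg')) S x]
      have hp := pert (W := fun y => (x - 1) * den y ^ (-x))
        (I := fun y => (H j '' K).indicator (1 : G → ℝ) (pos y))
        (a := fun y => S.indicator 1 y * φ j (pos y))
        (b := fun z => S.indicator 1 z * (if pos z ∈ (H j).target then
          ψ ((H j).symm (pos z)) * m j ((H j).symm (pos z)) ^ x else 0)) (M := M) (δ := δ)
        hW hx3.1 (fun z => ?_) (fun z => ?_)
      · refine hp.2.2.trans ?_
        refine mul_le_mul_of_nonneg_left ?_ hδ0.le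
        exact hx3.2.trans (le_abs_self _)
      · have hS : |S.indicator (1 : Om → ℝ) z| ≤ 1 := by
          by_cases hz : z ∈ S
          · rw [indicator_of_mem hz]; simp
          · rw [indicator_of_notMem hz]; simp
        by_cases hz : pos z ∈ H j '' K
        · rw [indicator_of_mem hz, abs_mul]
          calc _ ≤ 1 * M := mul_le_mul hS (hM _) (abs_nonneg _) zero_le_one
            _ = _ := by simp
        · have h0 : φ j (pos z) = 0 := by
            by_contra hne
            exact hz (tsupport_pushC _ _ _ _ (subset_tsupport _ hne))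
          rw [indicator_of_notMem hz, h0]
          simp
      · have hS : |S.indicator (1 : Om → ℝ) z| ≤ 1 := by
          by_cases hz : z ∈ S
          · rw [indicator_of_mem hz]; simp
          · rw [indicator_of_notMem hz]; simp
        rw [← mul_sub, abs_mul, hφa]
        by_cases ht : pos z ∈ (H j).target
        · rw [if_pos ht, if_pos ht, ← mul_sub, abs_mul]
          by_cases hz : (H j).symm (pos z) ∈ K
          · have hz' : pos z ∈ H j '' K := ⟨_, hz, (H j).right_inv ht⟩
            rw [indicator_of_mem hz']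
            have h01 := hψ01 ((H j).symm (pos z))
            have h2 : |ψ ((H j).symm (pos z))| ≤ 1 := by
              rw [abs_of_nonneg h01.1]
              exact h01.2
            calc _ ≤ 1 * (1 * δ) := mul_le_mul hS (mul_le_mul h2 (hx1 _ hz) (abs_nonneg _)
                  zero_le_one) (by positivity) zero_le_one
              _ = _ := by simp
          · rw [hψ0 _ hz, abs_zero, zero_mul, mul_zero]
            exact mul_nonneg hδ0.le (indicator_nonneg (fun _ _ => zero_le_one) _)
        · rw [if_neg ht, if_neg ht, sub_self, abs_zero, mul_zero]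
          exact mul_nonneg hδ0.le (indicator_nonneg (fun _ _ => zero_le_one) _)
    have k1 := key (A j)
    have k2 := key (B j)
    rw [Real.dist_eq, sub_zero] at hx2
    have k3 : δ * |C j| ≤ ε * c / 8 := by
      rw [hδ]
      rw [div_mul_eq_mul_div, div_le_div_iff₀ (by positivity) (by norm_num)]
      nlinarith [abs_nonneg (C j), mul_pos hε hc]
    rw [abs_lt] at hx2 ⊢
    rw [abs_le] at k1 k2
    constructor <;> nlinarith [mul_pos hε hc]
  obtain ⟨x, hx1, hx2, hx3, hx4⟩ := ((eventually_all.2 hdiff).and (hlow'.and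
    (hCK.and self_mem_nhdsWithin))).exists
  replace hx4 : 1 < x := hx4
  have hW : ∀ y, 0 ≤ (x - 1) * den y ^ (-x) := fun y =>
    mul_nonneg (by linarith) (Real.rpow_pos_of_pos (hden y) _).le
  have hsum : ∀ a : Om → ℝ, (∀ z, |a z| ≤ 1 * K.indicator 1 (pos z)) →
      Summable fun y => (x - 1) * den y ^ (-x) * a y := fun a ha =>
    (pert (b := a) (δ := 0) hW hx3.1 ha
      (fun z => by rw [sub_self, abs_zero, zero_mul])).1
  have hψK : ∀ y, |ψ (pos y)| ≤ 1 * K.indicator 1 (pos y) := by
    intro y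
    by_cases hy : pos y ∈ K
    · rw [indicator_of_mem hy, abs_of_nonneg (hψ01 _).1, Pi.one_apply, mul_one]
      exact (hψ01 _).2
    · rw [hψ0 _ hy, abs_zero, one_mul]
      exact indicator_nonneg (fun _ _ => zero_le_one) _
  have hψS : ∀ (S : Set Om) (j : J) (y : Om),
      |ψ (pos y) * S.indicator 1 (h j y)| ≤ 1 * K.indicator 1 (pos y) := by
    intro S j y
    have hS : |S.indicator (1 : Om → ℝ) (h j y)| ≤ 1 := by
      by_cases hz : h j y ∈ S
      · rw [indicator_of_mem hz]; simp
      · rw [indicator_of_notMem hz]; simp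
    rw [abs_mul]
    calc _ ≤ |ψ (pos y)| * 1 := mul_le_mul_of_nonneg_left hS (abs_nonneg _)
      _ ≤ _ := by rw [mul_one]; exact hψK y
  have hZ : c / 2 ≤ ∑' y, (x - 1) * den y ^ (-x) * ψ (pos y) := by
    obtain ⟨F, hF1, hF2⟩ := hx2
    calc c / 2 ≤ (∑ y ∈ F, (x - 1) * den y ^ (-x)) * (1 / 2) := by linarith
      _ = ∑ y ∈ F, (x - 1) * den y ^ (-x) * (1 / 2) := by rw [Finset.sum_mul]
      _ ≤ ∑ y ∈ F, (x - 1) * den y ^ (-x) * ψ (pos y) := by
          refine Finset.sum_le_sum fun y hy => mul_le_mul_of_nonneg_left ?_ (hW y)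
          exact (hF1 y hy).le
      _ ≤ _ := (hsum _ hψK).sum_le_tsum F fun y _ => mul_nonneg (hW y) (hψ01 _).1
  refine exists_trunc (om := fun y => (x - 1) * den y ^ (-x) * ψ (pos y))
    (fun y => mul_nonneg (hW y) (hψ01 _).1) (hsum _ hψK)
    (fun j y => (A j).indicator 1 (h j y) - (B j).indicator 1 (h j y)) (fun j => ?_) (fun j => ?_)
    (lt_of_lt_of_le (by positivity) hZ)
  · refine ((hsum _ (hψS (A j) j)).sub (hsum _ (hψS (B j) j))).congr fun y => ?_
    ring
  · have e : ∑' y, (x - 1) * den y ^ (-x) * ψ (pos y) *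
        ((A j).indicator 1 (h j y) - (B j).indicator 1 (h j y)) =
        ∑' y, (x - 1) * den y ^ (-x) * (ψ (pos y) * (A j).indicator 1 (h j y)) -
        ∑' y, (x - 1) * den y ^ (-x) * (ψ (pos y) * (B j).indicator 1 (h j y)) := by
      rw [← (hsum _ (hψS (A j) j)).tsum_sub (hsum _ (hψS (B j) j))]
      refine tsum_congr fun y => ?_
      ring
    rw [e]
    exact (hx1 j).trans_le (mul_le_mul_of_nonneg_left hZ hε.le)

end Main

end Vale.Agent.P011.H966
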