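import Vale.Agent.P011.H966.Letters
import Vale.Agent.P011.H380.Model
import Vale.Agent.P011.H674.Perm
import Vale.Agent.P011.H699.ModCont

/-!
# The letters are good, in the model `E = R ⊗ A`
-/

set_option linter.unusedSectionVars false

namespace Vale.Agent.P011.H966

open MeasureTheory Filter Topology Set Module
open scoped NNReal

open Vale.Agent.P011.H699 (colon den mem_colon colon_le LRing Latt index_mul_mod)
open Vale.Agent.P011.H544 Vale.Agent.P011.H380.UnitsTop
open Vale.Agent.P011.H380.UpBC hiding Good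
open Vale.Agent.P011.H674.Pair

variable {k R A E ι : Type*} [Field k] [CommRing R] [TopologicalSpace R] [IsTopologicalRing R]
  [Algebra k R] [DivisionRing A] [StarRing A] [Algebra k A] [StarLin k A] [Ring E] [StarRing E]
  [TopologicalSpace E] [IsTopologicalRing E] [Algebra R E] [Fintype ι] [DecidableEq ι]
  (B : BC k R A E ι)

/-- central elements of `A` are central in `E` -/
theorem j_central {d : A} (hd : ∀ x, d * x = x * d) (y : E) : B.j d * y = y * B.j d := by
  rw [← B.b.sum_repr y, Finset.mul_sum, Finset.sum_mul]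
  refine Finset.sum_congr rfl fun i _ => ?_
  rw [mul_smul_comm, smul_mul_assoc, B.b_apply, ← map_mul, ← map_mul, hd]

include B in
theorem uTop (hR : GoodUnits R) : UTop E :=
  ⟨(GoodUnits.algebra B.φ hR).isOpen, (GoodUnits.algebra B.φ hR).inv⟩

variable {U : Subgroup Aˣ}

/-- the unitary elements as elements of `unitary A` -/
def toU (hU : ∀ g : Aˣ, g ∈ U ↔ (g : A) * star (g : A) = 1) : U →* unitary A where
  toFun g := ⟨((g : Aˣ) : A), Unitary.mem_iff.2 ⟨by
    have h : ((g : Aˣ) : A) * star ((g : Aˣ) : A) = 1 := (hU _).1 g.2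
    have h1 : star ((g : Aˣ) : A) = (((g : Aˣ)⁻¹ : Aˣ) : A) := by
      rw [← Units.mul_right_inj (g : Aˣ), h, Units.mul_inv]
    rw [h1, Units.inv_mul], (hU _).1 g.2⟩⟩
  map_one' := rfl
  map_mul' _ _ := rfl

theorem coe_toU (hU : ∀ g : Aˣ, g ∈ U ↔ (g : A) * star (g : A) = 1) (g : U) :
    (toU hU g : A) = ((g : Aˣ) : A) := rfl

theorem toU_injective (hU : ∀ g : Aˣ, g ∈ U ↔ (g : A) * star (g : A) = 1) :
    Function.Injective (toU hU) := by
  intro g h hgh
  exact Subtype.ext (Units.ext (congrArg Subtype.val hgh))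

section

variable [Nontrivial R] [LocallyCompactSpace R] [T2Space R] {O : Subring k}
  (hG : Vale.Agent.P011.H380.UpBC.Good k R O) {Lam : Subring A} [Countable Lam] (H : IsOrd B.a O Lam)
  (hU : ∀ g : Aˣ, g ∈ U ↔ (g : A) * star (g : A) = 1)

include hG H

/-- `good_of_mob` for the model -/
theorem good_bc {a b c e a' b' c' e' : A} (HI : Inv2 a b c e a' b' c' e')
    (HI' : Inv2 a' b' c' e' a b c e)
    (hM : UM (B.j a) (B.j b) (B.j c) (B.j e)) (hM' : UM (B.j a') (B.j b') (B.j c') (B.j e'))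
    (hm : ∀ x ∈ ({a, b, c, e, a', b', c', e'} : Set A), x ∈ Lam)
    (h : Equiv.Perm U) (hh : ∀ y : U, a + b * ((y : Aˣ) : A) ≠ 0 ∧
      (((h y : U) : Aˣ) : A) = (c + e * ((y : Aˣ) : A)) * (a + b * ((y : Aˣ) : A))⁻¹) (y : U) :
    Good (fun y : U => jU B (toU hU y)) (fun y : U => (den Lam ((y : Aˣ) : A) : ℝ)) h y := by
  have := B.t2
  have := B.locallyCompact
  have h1 := good_of_mob (Λ := Lam.map B.j) (uTop B hG.units)
    (H699.continuous_distribHaarChar (E := E)) (lring B hG.disc hG.coc H) B.j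
    (fun y : U => jU B (toU hU y)) (fun y => rfl) (fun y => by
      rw [H699.den_map B.j B.j_inj]
      exact den_ne_zero B hG.disc hG.coc hG.frac H _) HI HI' hM hM'
    (fun x hx => ⟨x, hm x hx, rfl⟩) h hh y
  have h2 : (fun y : U => (den (Lam.map B.j) (B.j ((y : Aˣ) : A)) : ℝ))
      = fun y : U => (den Lam ((y : Aˣ) : A) : ℝ) := by
    funext y
    rw [H699.den_map B.j B.j_inj]
  rwa [h2] at h1

variable {δ : A} (h : Chart U δ)

include h

theorem good_T {v : A} (hv : star v = v) (hvL : v ∈ Lam) (hδL : δ ∈ Lam)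
    (hzL : (4 * (δ * δ))⁻¹ ∈ Lam) (y : U) :
    Good (fun y : U => jU B (toU h.mem_iff y)) (fun y : U => (den Lam ((y : Aˣ) : A) : ℝ))
      (h.T v) y := by
  set z : A := (4 * (δ * δ))⁻¹ with hz
  have h4 : (4 : A) ≠ 0 := by
    have : (4 : A) = 2 * 2 := by norm_num
    rw [this]
    exact mul_ne_zero h.two h.two
  have hne : 4 * (δ * δ) ≠ 0 := mul_ne_zero h4 (mul_ne_zero h.ne h.ne)
  have hz1 : z * (4 * (δ * δ)) = 1 := inv_mul_cancel₀ hne
  have h4c : ∀ x : A, (4 : A) * x = x * 4 := fun x => (Nat.cast_commute 4 x).eq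
  have hzc' : ∀ x : A, (4 * (δ * δ)) * x = x * (4 * (δ * δ)) := by
    intro x
    calc (4 * (δ * δ)) * x = 4 * (δ * (δ * x)) := by noncomm_ring
      _ = (4 * x) * (δ * δ) := by rw [h.comm x, ← mul_assoc δ x δ, h.comm x]; noncomm_ring
      _ = _ := by rw [h4c x]; noncomm_ring
  have hzc : ∀ x : A, z * x = x * z := by
    intro x
    have h5 : Commute (4 * (δ * δ)) x := hzc' x
    exact (h5.inv_left₀).eq
  have hUM := um_T (E := E) (v := B.j v) (d := B.j δ) (by rw [← B.j_star, hv])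
    (j_central B h.comm) (by rw [← B.j_star, h.star_del, map_neg])
  have e1 : B.j (2 * δ - v) = 2 * B.j δ - B.j v := by rw [map_sub, map_mul, map_ofNat]
  have e2 : B.j (2 * δ + v) = 2 * B.j δ + B.j v := by rw [map_add, map_mul, map_ofNat]
  have hUM' := (um_T (E := E) (v := -B.j v) (d := B.j δ) (by rw [star_neg, ← B.j_star, hv])
    (j_central B h.comm) (by rw [← B.j_star, h.star_del, map_neg])).smul
    (z := B.j z) (j_central B hzc)
  have h2L : (2 : A) ∈ Lam := ofNat_mem Lam 2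
  refine good_bc B hG H h.mem_iff (inv_T (v := v) h.comm hz1) (inv_T' (v := v) h.comm hzc hz1)
    (by rwa [e1, e2, map_neg]) (by
      rw [map_mul, map_mul, map_mul, map_mul, e1, e2, map_neg]
      rwa [sub_neg_eq_add, neg_neg, ← sub_eq_add_neg] at hUM') ?_ (h.T v)
    (fun y => ⟨h.den_T hv y, h.coe_T hv y⟩) y
  have hp : 2 * δ + v ∈ Lam := Lam.add_mem (Lam.mul_mem h2L hδL) hvL
  have hq : 2 * δ - v ∈ Lam := Lam.sub_mem (Lam.mul_mem h2L hδL) hvL
  have hn : -v ∈ Lam := Lam.neg_mem hvL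
  rintro x hx
  simp only [mem_insert_iff, mem_singleton_iff] at hx
  rcases hx with rfl | rfl | rfl | rfl | rfl | rfl | rfl | rfl
  · exact hq
  · exact hvL
  · exact hn
  · exact hp
  · exact Lam.mul_mem hzL hp
  · exact Lam.mul_mem hzL hn
  · exact Lam.mul_mem hzL hvL
  · exact Lam.mul_mem hzL hq

theorem good_W {g : A} (hg : g ≠ 0) (hgL : g ∈ Lam) (hgL' : g⁻¹ ∈ Lam)
    (hzL : (4 : A)⁻¹ ∈ Lam) (y : U) :
    Good (fun y : U => jU B (toU h.mem_iff y)) (fun y : U => (den Lam ((y : Aˣ) : A) : ℝ))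
      (h.W g) y := by
  have h4 : (4 : A) ≠ 0 := by
    have : (4 : A) = 2 * 2 := by norm_num
    rw [this]
    exact mul_ne_zero h.two h.two
  have hz1 : (4 : A)⁻¹ * 4 = 1 := inv_mul_cancel₀ h4
  have hzc : ∀ x : A, (4 : A)⁻¹ * x = x * (4 : A)⁻¹ := by
    intro x
    have h5 : Commute (4 : A) x := Nat.cast_commute 4 x
    exact (h5.inv_left₀).eq
  have hsg : star g ≠ 0 := star_ne_zero.2 hg
  have f1 : g⁻¹ * g = 1 := inv_mul_cancel₀ hg
  have f2 : star g * (star g)⁻¹ = 1 := mul_inv_cancel₀ hsg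
  have f3 : g * g⁻¹ = 1 := mul_inv_cancel₀ hg
  have f4 : (star g)⁻¹ * star g = 1 := inv_mul_cancel₀ hsg
  have hUM := um_W (E := E) (g := B.j g) (g' := B.j (star g)⁻¹)
    (by rw [← B.j_star, ← map_mul, f2, map_one])
    (by rw [← B.j_star, ← map_mul, star_inv₀, star_star, f1, map_one])
  have hUM' := (um_W (E := E) (g := B.j g⁻¹) (g' := B.j (star g))
    (by rw [← B.j_star, ← map_mul, star_inv₀, f4, map_one])
    (by rw [← B.j_star, ← map_mul, star_star, f3, map_one])).smul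
    (z := B.j (4 : A)⁻¹) (j_central B hzc)
  refine good_bc B hG H h.mem_iff
    (inv_W (g := g) (g' := (star g)⁻¹) (f := g⁻¹) (f' := star g) f1 f2 hz1)
    (inv_W' (g := g) (g' := (star g)⁻¹) (f := g⁻¹) (f' := star g) f3 f4 hzc hz1)
    (by rwa [map_add, map_sub]) (by
      rw [map_mul, map_mul, map_add, map_sub]
      exact hUM') ?_ (h.W g)
    (fun y => ⟨h.den_W hg y, h.coe_W hg y⟩) y
  have hsL : star g ∈ Lam := H.star_mem _ hgL
  have hsL' : (star g)⁻¹ ∈ Lam := by
    rw [← star_inv₀]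
    exact H.star_mem _ hgL'
  rintro x hx
  simp only [mem_insert_iff, mem_singleton_iff] at hx
  rcases hx with rfl | rfl | rfl | rfl | rfl | rfl | rfl | rfl
  · exact Lam.add_mem hgL hsL'
  · exact Lam.sub_mem hgL hsL'
  · exact Lam.sub_mem hgL hsL'
  · exact Lam.add_mem hgL hsL'
  · exact Lam.mul_mem hzL (Lam.add_mem hgL' hsL)
  · exact Lam.mul_mem hzL (Lam.sub_mem hgL' hsL)
  · exact Lam.mul_mem hzL (Lam.sub_mem hgL' hsL)
  · exact Lam.mul_mem hzL (Lam.add_mem hgL' hsL)

theorem good_L (u : U) (huL : ((u : Aˣ) : A) ∈ Lam) (y : U) :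
    Good (fun y : U => jU B (toU h.mem_iff y)) (fun y : U => (den Lam ((y : Aˣ) : A) : ℝ))
      (h.L u) y := by
  have hu1 : ((u : Aˣ) : A) * star ((u : Aˣ) : A) = 1 := h.mul_star u
  have hu2 : star ((u : Aˣ) : A) * ((u : Aˣ) : A) = 1 :=
    Unitary.star_mul_self_of_mem (toU h.mem_iff u).2
  have huL' : star ((u : Aˣ) : A) ∈ Lam := H.star_mem _ huL
  refine good_bc B hG H h.mem_iff (inv_L (u := ((u : Aˣ) : A)) (u' := star ((u : Aˣ) : A)) hu2)
    (inv_L (u := star ((u : Aˣ) : A)) (u' := ((u : Aˣ) : A)) hu1)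
    ?_ ?_ ?_ (h.L u) (fun y => ?_) y
  · rw [map_one, map_zero]
    exact um_L (by rw [← B.j_star, ← map_mul, hu2, map_one])
  · rw [map_one, map_zero]
    exact um_L (by rw [← B.j_star, ← map_mul, star_star, hu1, map_one])
  · rintro x hx
    simp only [mem_insert_iff, mem_singleton_iff] at hx
    rcases hx with rfl | rfl | rfl | rfl | rfl | rfl | rfl | rfl
    · exact Lam.one_mem
    · exact Lam.zero_mem
    · exact Lam.zero_mem
    · exact huL
    · exact Lam.one_mem
    · exact Lam.zero_mem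
    · exact Lam.zero_mem
    · exact huL'
  · refine ⟨by rw [zero_mul, add_zero]; exact one_ne_zero, ?_⟩
    rw [zero_mul, add_zero, inv_one, mul_one, zero_add]
    rfl

end

end Vale.Agent.P011.H966
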