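import Vale.Agent.P011.H966.NeNF
import Vale.Agent.P011.H261.M6Q0
import Vale.Agent.P011.H487.GExSpl
import Vale.Agent.P011.H973.LowNF

/-!
# NE for number fields and a target group at the place `q₀` (M8)
-/

set_option linter.unusedSectionVars false

namespace Vale.Agent.P011.H966

open MeasureTheory Filter Topology Set Module NumberField IsDedekindDomain
open scoped CompactlySupported
open Vale.Agent.P011.H544 Vale.Agent.P011.H261 Vale.Agent.P011.H487
open Vale.Agent.P011.H380.UpBC hiding Good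
open Vale.Agent.P011.H674.Pair
open Vale.Agent.P011.H210 (SR)
open Vale.Agent.P011.Even Vale.Agent.P011.Two

section spl

variable {k D : Type} [Field k] [NumberField k] [DivisionRing D] [StarRing D] [Algebra k D]
  [StarLin k D] {n N : ℕ} (B : Basis (Fin N) k D)
  {q₀ : HeightOneSpectrum (𝓞 k)} (H : Spl B (q₀.adicCompletion k) n)
  {K Ω : Type} [Field K] [Algebra K D] [Field Ω] [Algebra K Ω]
  (f : D →ₐ[K] Matrix (Fin n) (Fin n) Ω)

/-- **the limit at every `S ∋ q₀`** -/
theorem limAt_target {δ : D} (hC : Chart (H976.UD D) δ) [CharZero K] [FiniteDimensional K D]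
    [Algebra.IsCentral K D] (hn : 1 < n) (hdeg : finrank K D = n ^ 2)
    (φ₀ : K →+* q₀.adicCompletion k)
    (hφ₀ : ∀ c : K, H.f (algebraMap K D c) = algebraMap (q₀.adicCompletion k) _ (φ₀ c))
    {Q : Type*} [Group Q] {c : H976.UD D →* Q} {R : Subgroup Q}
    (hT : H976.Target0 (H976.lvF f B {q₀}) c R) {S : Finset (HeightOneSpectrum (𝓞 k))}
    (hq : q₀ ∈ S) :
    LimAt B (H.f : D →+* Matrix (Fin n) (Fin n) (q₀.adicCompletion k)) c R
      (fun b : k => hC.T (algebraMap k D b)) S :=
  ⟨X0Q B hq H, isOpen_X0Q B hq H, fun y hy => posS_mem_X0Q B hq H hy,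
    fun b ρ hρ a a' φ hφ => hlim_target B hq H f hC hn hdeg φ₀ hφ₀ hT hρ b φ hφ a a'⟩

end spl

section main

variable {k K D : Type} [Field k] [NumberField k] [Field K] [NumberField K] [StarRing K]
  [DivisionRing D] [StarRing D] [Algebra k K] [Algebra k D] [Algebra K D] [IsScalarTower k K D]
  {d : kˣ} {s : K} {Ω : Type} [Field Ω] [Algebra K Ω] {n N : ℕ}

omit [NumberField K] in
theorem starLin_of (hS : Setting k K D d s) : StarLin k D := ⟨fun c x => by
  have h1 : star (algebraMap k K c) = algebraMap k K c := (hS.fix _).2 ⟨c, rfl⟩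
  have h2 : ∀ y : D, c • y = (algebraMap k K c) • y := fun y => (algebraMap_smul K c y).symm
  rw [h2, h2, hS.star_smul, h1]⟩

/-- **P9 for number fields.** For a target `c` with respect to the levels at `q₀`, a star field `E`
containing `k`, `δ` and a symmetric element `σ` which is split regular at `q₀`, and every unitary
`t ∈ E`, the laws of the pairs `(c (h x), c (T_b (h x)))`, `h = L_t π` or `L_t⁻¹ π`, `π ∈ PE`, are
asymptotically invariant under the simultaneous conjugation by elements of `R`. -/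
theorem ne_nf (hS : Setting k K D d s) (hn : 1 < n) (hdeg : finrank K D = n ^ 2)
    (f : D →ₐ[K] Matrix (Fin n) (Fin n) Ω) (B : Basis (Fin N) k D)
    {q₀ : HeightOneSpectrum (𝓞 k)} {φ₀ : K →+* q₀.adicCompletion k}
    {f₀ : D →+* Matrix (Fin n) (Fin n) (q₀.adicCompletion k)} (hq : One.SplAt K D n q₀ φ₀ f₀)
    {δ : D} (hC : Chart (H976.UD D) δ) {E : Subring D} (hE : CStar δ E)
    (hkE : ∀ c : k, algebraMap k D c ∈ E)
    {σ : D} (hσE : σ ∈ E) (hσs : star σ = σ) (hsr : f₀ σ ∈ SR (Fin n) (q₀.adicCompletion k))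
    {t : H976.UD D} (ht : ((t : Dˣ) : D) ∈ E)
    {Q : Type*} [Group Q] {c : H976.UD D →* Q} {R : Subgroup Q}
    (hT : H976.Target0 (H976.lvF f B {q₀}) c R) :
    NE c R {p | ∃ π ∈ hC.PE hE, p = hC.L t * π ∨ p = (hC.L t)⁻¹ * π}
      (fun b : k => hC.T (algebraMap k D b)) := by
  have := hS.fin
  have := hS.cen
  have := starLin_of hS
  have hst : ∀ c : K, star (algebraMap K D c) = algebraMap K D (star c) := fun c => by
    rw [Algebra.algebraMap_eq_smul_one, hS.star_smul, star_one, ← Algebra.algebraMap_eq_smul_one]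
  have hfix : ∀ c : k, star (algebraMap k K c) = algebraMap k K c := fun c => (hS.fix _).2 ⟨c, rfl⟩
  have hne : ∃ c : K, star c ≠ c := by
    refine ⟨s, fun h0 => hS.ns ?_⟩
    obtain ⟨r, hr⟩ := (hS.fix s).1 h0
    refine ⟨r, ?_⟩
    have h1 := hS.sq
    rw [← hr, ← map_pow] at h1
    rw [← pow_two]
    exact ((algebraMap k K).injective h1).symm
  obtain ⟨H, hH⟩ := exists_spl (by omega) hdeg hS.rank hst hne hfix φ₀ hq.base f₀
    (fun c => hq.map c) B
  subst hH
  have : Nontrivial (Fin n) := Fin.nontrivial_iff_two_le.2 hn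
  refine ne_nf_of B hC hE (algebraMap k (q₀.adicCompletion k)) H.f (fun c => ?_) hσE hσs hsr hkE ht
    ⟨{q₀}, fun S hqS => limAt_target B H f hC hn hdeg φ₀ hq.map hT
      (Finset.singleton_subset_iff.1 hqS)⟩
    ⟨∅, fun S _ x0 hx0 V hV hxV => H973.low_nf hS (by omega) hdeg B S hx0 hV hxV⟩
  rw [IsScalarTower.algebraMap_apply k K D, hq.map, hq.base]

end main

end Vale.Agent.P011.H966
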