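import Vale.Agent.P011.H966.MobGood

/-!
# The letters `L u`, `T v`, `W g` are good
-/

namespace Vale.Agent.P011.H966

open MeasureTheory Filter Topology Set
open scoped NNReal

open Vale.Agent.P011.H699 (colon den mem_colon colon_le LRing Latt index_mul_mod)

section Alg

variable {E : Type*} [Ring E] [StarRing E]

theorem UM.smul {a b c e z : E} (h : UM a b c e) (hz : ∀ x, z * x = x * z) :
    UM (z * a) (z * b) (z * c) (z * e) := by
  have hsz : ∀ x, star z * x = x * star z := by
    intro x
    have := congrArg star (hz (star x))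
    rw [star_mul, star_mul, star_star] at this
    exact this.symm
  have key : ∀ x y : E, star (z * x) * (z * y) = star z * z * (star x * y) := by
    intro x y
    rw [star_mul]
    calc star x * star z * (z * y) = star z * star x * (z * y) := by rw [hsz]
      _ = star z * (star x * z) * y := by noncomm_ring
      _ = star z * (z * star x) * y := by rw [hz]
      _ = _ := by noncomm_ring
  obtain ⟨l, hl, h1, h2⟩ := h.lam
  refine ⟨⟨star z * z * l, ?_, ?_, ?_⟩, ?_⟩
  · intro x
    calc star z * z * l * x = star z * (z * (l * x)) := by noncomm_ring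
      _ = star z * (z * x) * l := by rw [hl]; noncomm_ring
      _ = star z * x * z * l := by rw [hz]; noncomm_ring
      _ = x * star z * z * l := by rw [hsz]
      _ = _ := by noncomm_ring
  · rw [key, key, h1, mul_add]
  · rw [key, key, h2, mul_add]
  · rw [key, key, h.cross]

theorem um_L {u : E} (hu : star u * u = 1) : UM 1 0 0 u where
  lam := ⟨1, fun x => by rw [one_mul, mul_one], by simp, by simp [hu]⟩
  cross := by simp

theorem um_T {v d : E} (hv : star v = v) (hd : ∀ x, d * x = x * d) (hsd : star d = -d) :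
    UM (2 * d - v) v (-v) (2 * d + v) := by
  have h2 : star (2 : E) = 2 := star_ofNat 2
  have hsa : star (2 * d - v) = -(2 * d) - v := by
    rw [star_sub, star_mul, h2, hsd, hv, neg_mul, hd]
  have hse : star (2 * d + v) = -(2 * d) + v := by
    rw [star_add, star_mul, h2, hsd, hv, neg_mul, hd]
  refine ⟨⟨-(4 * (d * d)), ?_, ?_, ?_⟩, ?_⟩
  · intro x
    have h4 : (4 : E) * x = x * 4 := (Nat.cast_commute 4 x).eq
    calc -(4 * (d * d)) * x = -(4 * (d * (d * x))) := by noncomm_ring
      _ = -(4 * x * (d * d)) := by rw [hd x, ← mul_assoc d x d, hd x]; noncomm_ring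
      _ = _ := by rw [h4]; noncomm_ring
  · rw [hsa, star_neg, hv]
    have h1 : (-(2 * d) - v) * (2 * d - v) = -(4 * (d * d)) + 2 * (d * v) - 2 * (v * d) + v * v := by
      noncomm_ring
    rw [h1, hd v]
    noncomm_ring
  · rw [hse, hv]
    have h1 : (-(2 * d) + v) * (2 * d + v) = -(4 * (d * d)) - 2 * (d * v) + 2 * (v * d) + v * v := by
      noncomm_ring
    rw [h1, hd v]
    noncomm_ring
  · rw [hsa, star_neg, hv]
    have h1 : (-(2 * d) - v) * v = -(2 * (d * v)) - v * v := by noncomm_ring
    have h2 : -v * (2 * d + v) = -(2 * (v * d)) - v * v := by noncomm_ring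
    rw [h1, h2, hd v]

theorem um_W {g g' : E} (h1 : star g * g' = 1) (h2 : star g' * g = 1) :
    UM (g + g') (g - g') (g - g') (g + g') := by
  refine ⟨⟨4, fun x => (Nat.cast_commute 4 x).eq, ?_, ?_⟩, ?_⟩
  · rw [star_add, star_sub]
    have e1 : (star g + star g') * (g + g') = star g * g + star g * g' + star g' * g
        + star g' * g' := by noncomm_ring
    have e2 : (star g - star g') * (g - g') = star g * g - star g * g' - star g' * g
        + star g' * g' := by noncomm_ring
    have h4 : (4 : E) = 1 + 1 + 1 + 1 := by norm_num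
    rw [e1, e2, h1, h2, h4]
    abel
  · rw [star_add, star_sub]
    have e1 : (star g + star g') * (g + g') = star g * g + star g * g' + star g' * g
        + star g' * g' := by noncomm_ring
    have e2 : (star g - star g') * (g - g') = star g * g - star g * g' - star g' * g
        + star g' * g' := by noncomm_ring
    have h4 : (4 : E) = 1 + 1 + 1 + 1 := by norm_num
    rw [e1, e2, h1, h2, h4]
    abel
  · rw [star_add, star_sub]
    have e1 : (star g + star g') * (g - g') = star g * g - star g * g' + star g' * g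
        - star g' * g' := by noncomm_ring
    have e2 : (star g - star g') * (g + g') = star g * g + star g * g' - star g' * g
        - star g' * g' := by noncomm_ring
    rw [e1, e2, h1, h2]
    noncomm_ring

end Alg

section Inv

variable {D : Type*} [Ring D]

theorem inv_L {u u' : D} (h : u' * u = 1) : Inv2 1 0 0 u 1 0 0 u' where
  aa := by simp
  ab := by simp
  ba := by simp
  bb := by simp [h]

theorem inv_T {v d z : D} (hd : ∀ x, d * x = x * d) (hz : z * (4 * (d * d)) = 1) :
    Inv2 (2 * d - v) v (-v) (2 * d + v)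
      (z * (2 * d + v)) (z * (-v)) (z * v) (z * (2 * d - v)) where
  aa := by
    have h1 : z * (2 * d + v) * (2 * d - v) + z * (-v) * (-v)
        = z * (4 * (d * d)) + z * (2 * (v * d)) - z * (2 * (d * v)) := by noncomm_ring
    rw [h1, hd v, hz]
    noncomm_ring
  ab := by
    have h1 : z * (2 * d + v) * v + z * (-v) * (2 * d + v)
        = z * (2 * (d * v)) - z * (2 * (v * d)) := by noncomm_ring
    rw [h1, hd v, sub_self]
  ba := by
    have h1 : z * v * (2 * d - v) + z * (2 * d - v) * (-v)
        = z * (2 * (v * d)) - z * (2 * (d * v)) := by noncomm_ring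
    rw [h1, hd v, sub_self]
  bb := by
    have h1 : z * v * v + z * (2 * d - v) * (2 * d + v)
        = z * (4 * (d * d)) + z * (2 * (d * v)) - z * (2 * (v * d)) := by noncomm_ring
    rw [h1, hd v, hz]
    noncomm_ring

theorem inv_T' {v d z : D} (hd : ∀ x, d * x = x * d) (hzc : ∀ x, z * x = x * z)
    (hz : z * (4 * (d * d)) = 1) :
    Inv2 (z * (2 * d + v)) (z * (-v)) (z * v) (z * (2 * d - v))
      (2 * d - v) v (-v) (2 * d + v) where
  aa := by
    have h1 : (2 * d - v) * (z * (2 * d + v)) + v * (z * v)
        = z * ((2 * d - v) * (2 * d + v) + v * v) := by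
      rw [← mul_assoc (2 * d - v) z, ← hzc (2 * d - v), ← mul_assoc v z, ← hzc v]
      noncomm_ring
    have h2 : (2 * d - v) * (2 * d + v) + v * v = 4 * (d * d) + 2 * (d * v) - 2 * (v * d) := by
      noncomm_ring
    rw [h1, h2, hd v, add_sub_cancel_right, hz]
  ab := by
    have h1 : (2 * d - v) * (z * (-v)) + v * (z * (2 * d - v))
        = z * ((2 * d - v) * (-v) + v * (2 * d - v)) := by
      rw [← mul_assoc (2 * d - v) z, ← hzc (2 * d - v), ← mul_assoc v z, ← hzc v]
      noncomm_ring
    have h2 : (2 * d - v) * (-v) + v * (2 * d - v) = 2 * (v * d) - 2 * (d * v) := by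
      noncomm_ring
    rw [h1, h2, hd v, sub_self, mul_zero]
  ba := by
    have h1 : (-v) * (z * (2 * d + v)) + (2 * d + v) * (z * v)
        = z * ((-v) * (2 * d + v) + (2 * d + v) * v) := by
      rw [← mul_assoc (-v) z, ← hzc (-v), ← mul_assoc (2 * d + v) z, ← hzc (2 * d + v)]
      noncomm_ring
    have h2 : (-v) * (2 * d + v) + (2 * d + v) * v = 2 * (d * v) - 2 * (v * d) := by
      noncomm_ring
    rw [h1, h2, hd v, sub_self, mul_zero]
  bb := by
    have h1 : (-v) * (z * (-v)) + (2 * d + v) * (z * (2 * d - v))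
        = z * (v * v + (2 * d + v) * (2 * d - v)) := by
      rw [← mul_assoc (-v) z, ← hzc (-v), ← mul_assoc (2 * d + v) z, ← hzc (2 * d + v)]
      noncomm_ring
    have h2 : v * v + (2 * d + v) * (2 * d - v) = 4 * (d * d) + 2 * (v * d) - 2 * (d * v) := by
      noncomm_ring
    rw [h1, h2, hd v, add_sub_cancel_right, hz]

/-- `f = g⁻¹`, `g' = (star g)⁻¹`, `f' = star g` -/
theorem inv_W {g g' f f' z : D} (h1 : f * g = 1) (h2 : f' * g' = 1)
    (hz : z * 4 = 1) :
    Inv2 (g + g') (g - g') (g - g') (g + g')
      (z * (f + f')) (z * (f - f')) (z * (f - f')) (z * (f + f')) where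
  aa := by
    have e1 : z * (f + f') * (g + g') + z * (f - f') * (g - g')
        = z * (2 * (f * g) + 2 * (f' * g')) := by noncomm_ring
    have h4 : (2 * 1 + 2 * 1 : D) = 4 := by norm_num
    rw [e1, h1, h2, h4, hz]
  ab := by
    have e1 : z * (f + f') * (g - g') + z * (f - f') * (g + g')
        = z * (2 * (f * g) - 2 * (f' * g')) := by noncomm_ring
    rw [e1, h1, h2, sub_self, mul_zero]
  ba := by
    have e1 : z * (f - f') * (g + g') + z * (f + f') * (g - g')
        = z * (2 * (f * g) - 2 * (f' * g')) := by noncomm_ring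
    rw [e1, h1, h2, sub_self, mul_zero]
  bb := by
    have e1 : z * (f - f') * (g - g') + z * (f + f') * (g + g')
        = z * (2 * (f * g) + 2 * (f' * g')) := by noncomm_ring
    have h4 : (2 * 1 + 2 * 1 : D) = 4 := by norm_num
    rw [e1, h1, h2, h4, hz]

theorem inv_W' {g g' f f' z : D} (h1 : g * f = 1) (h2 : g' * f' = 1)
    (hzc : ∀ x, z * x = x * z) (hz : z * 4 = 1) :
    Inv2 (z * (f + f')) (z * (f - f')) (z * (f - f')) (z * (f + f'))
      (g + g') (g - g') (g - g') (g + g') where
  aa := by
    rw [← mul_assoc (g + g') z, ← hzc (g + g'), ← mul_assoc (g - g') z, ← hzc (g - g')]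
    have e1 : z * (g + g') * (f + f') + z * (g - g') * (f - f')
        = z * (2 * (g * f) + 2 * (g' * f')) := by noncomm_ring
    have h4 : (2 * 1 + 2 * 1 : D) = 4 := by norm_num
    rw [e1, h1, h2, h4, hz]
  ab := by
    rw [← mul_assoc (g + g') z, ← hzc (g + g'), ← mul_assoc (g - g') z, ← hzc (g - g')]
    have e1 : z * (g + g') * (f - f') + z * (g - g') * (f + f')
        = z * (2 * (g * f) - 2 * (g' * f')) := by noncomm_ring
    rw [e1, h1, h2, sub_self, mul_zero]
  ba := by
    rw [← mul_assoc (g + g') z, ← hzc (g + g'), ← mul_assoc (g - g') z, ← hzc (g - g')]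
    have e1 : z * (g - g') * (f + f') + z * (g + g') * (f - f')
        = z * (2 * (g * f) - 2 * (g' * f')) := by noncomm_ring
    rw [e1, h1, h2, sub_self, mul_zero]
  bb := by
    rw [← mul_assoc (g + g') z, ← hzc (g + g'), ← mul_assoc (g - g') z, ← hzc (g - g')]
    have e1 : z * (g - g') * (f - f') + z * (g + g') * (f + f')
        = z * (2 * (g * f) + 2 * (g' * f')) := by noncomm_ring
    have h4 : (2 * 1 + 2 * 1 : D) = 4 := by norm_num
    rw [e1, h1, h2, h4, hz]

end Inv

end Vale.Agent.P011.H966
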