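import Vale.Agent.P011.H722.Mean

/-!
# The line argument (abstract half of P10b)
-/

namespace Vale.Agent.P011.H966

open Vale.Agent.P011.H722

/-- **The line theorem, abstract form.**  `f` a colouring of `k` by a finite set with a
distinguished colour `e`; if every colour `s` of positive mean on the line satisfies
`f b₀ = e → s = e` and `s = e → f b₀ = e` at every base point `b₀`, then `f b₀ = e` for one `b₀`
implies that `f` is constant `e`. -/
theorem line_abs {k Q : Type*} [AddCommGroup k] [Finite Q] {m : (k → ℝ) → ℝ} (hm : IsMean m)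
    (hinv : ∀ (b : k) (f : k → ℝ), m (fun x => f (x + b)) = m f) (f : k → Q) (e : Q)
    (h1 : ∀ (b₀ : k) (s : Q), 0 < mset m {b | f (b₀ + b) = s} → f b₀ = e → s = e)
    (h2 : ∀ (b₀ : k) (s : Q), 0 < mset m {b | f (b₀ + b) = s} → s = e → f b₀ = e)
    {b₀ : k} (h0 : f b₀ = e) (b : k) : f b = e := by
  have key : ∀ (c : k) (s : Q), mset m {b | f (c + b) = s} = mset m {b | f b = s} := by
    intro c s
    have := hinv c ((({b | f b = s} : Set k)).indicator 1)
    rw [mset, mset, ← this]
    congr 1
    funext x
    have e1 : ({b | f (c + b) = s} : Set k) = (fun x => x + c) ⁻¹' {b | f b = s} := by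
      ext y
      simp [add_comm]
    rw [e1]
    rfl
  obtain ⟨s, hs⟩ := hm.exists_pos f (S := Set.univ) (by rw [hm.mset_univ]; exact one_pos)
  have hs' : 0 < mset m {b | f b = s} := by
    refine lt_of_lt_of_le hs (hm.mset_mono fun x hx => ?_)
    exact hx.2
  have hse : s = e := h1 b₀ s (by rw [key]; exact hs') h0
  exact h2 b s (by rw [key]; exact hs') hse

end Vale.Agent.P011.H966
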