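import Mathlib

/-!
# Transport of weighted point sets under local homeomorphisms (abstract half of NONEMPTY, P9)

`Om` a set of points, `pos : Om → G`, `den : Om → ℝ`, weights `(x - 1) * den y ^ (-x)`, `x → 1+`.
`Good pos den h y` : the permutation `h` of `Om` acts near `pos y` by a local homeomorphism of `G`
and multiplies `den` by a continuous function of the position.
`exists_finite_law` : if for finitely many pairs `(A j, B j)` of subsets of `Om` the weights of
`A j` and `B j` are asymptotically equal (tested against compactly supported functions with support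
in the open set `X0`), if `h j` is good at `x0` and `pos (h j x0) ∈ X0`, then there is a finitely
supported probability `w` on `Om` with `|w {h j y ∈ A j} - w {h j y ∈ B j}| ≤ ε` for all `j`.
-/

namespace Vale.Agent.P011.H966

open Filter Topology Set
open scoped CompactlySupported

section Trunc

/-- truncation of a summable weight -/
theorem exists_trunc {Om J : Type*} [Finite J] {om : Om → ℝ} (h0 : ∀ y, 0 ≤ om y)
    (hs : Summable om) (Phi : J → Om → ℝ) (hPhi : ∀ j, Summable fun y => om y * Phi j y)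
    {ε : ℝ} (hlt : ∀ j, |∑' y, om y * Phi j y| < ε * ∑' y, om y) (hpos : 0 < ∑' y, om y) :
    ∃ (F : Finset Om) (w : Om → ℝ), (∀ y, 0 ≤ w y) ∧ ∑ y ∈ F, w y = 1 ∧
      ∀ j, |∑ y ∈ F, w y * Phi j y| ≤ ε := by
  have h1 : Tendsto (fun F : Finset Om => ∑ y ∈ F, om y) atTop (𝓝 (∑' y, om y)) := hs.hasSum
  have h2 : ∀ j, ∀ᶠ F : Finset Om in atTop, |∑ y ∈ F, om y * Phi j y| < ε * ∑ y ∈ F, om y := by
    intro j
    have h3 : Tendsto (fun F : Finset Om => |∑ y ∈ F, om y * Phi j y|) atTop
        (𝓝 |∑' y, om y * Phi j y|) := (hPhi j).hasSum.abs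
    exact h3.eventually_lt (h1.const_mul ε) (hlt j)
  have h4 : ∀ᶠ F : Finset Om in atTop, 0 < ∑ y ∈ F, om y := h1.eventually_const_lt hpos
  obtain ⟨F, hF1, hF2⟩ := ((eventually_all.2 h2).and h4).exists
  refine ⟨F, fun y => om y / ∑ y ∈ F, om y, fun y => div_nonneg (h0 y) hF2.le, ?_, fun j => ?_⟩
  · rw [← Finset.sum_div, div_self hF2.ne']
  · have h5 : ∑ y ∈ F, om y / (∑ y ∈ F, om y) * Phi j y
        = (∑ y ∈ F, om y * Phi j y) / ∑ y ∈ F, om y := by
      rw [Finset.sum_div]
      refine Finset.sum_congr rfl fun y _ => ?_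
      ring
    rw [h5, abs_div, abs_of_pos hF2, div_le_iff₀ hF2]
    exact (hF1 j).le

end Trunc

section Good

variable {Om G : Type*} [TopologicalSpace G]

/-- `h` acts near `pos y` by a local homeomorphism and multiplies `den` by a continuous positive
function of the position. -/
def Good (pos : Om → G) (den : Om → ℝ) (h : Equiv.Perm Om) (y : Om) : Prop :=
  ∃ (H : OpenPartialHomeomorph G G) (m : G → ℝ), pos y ∈ H.source ∧ ContinuousOn m H.source ∧
    (∀ g ∈ H.source, 0 < m g) ∧
    (∀ z, pos z ∈ H.source → pos (h z) = H (pos z) ∧ den (h z) = m (pos z) * den z) ∧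
    (∀ z, pos z ∈ H.target → pos (h.symm z) ∈ H.source)

theorem Good.one (pos : Om → G) (den : Om → ℝ) (y : Om) : Good pos den 1 y := by
  refine ⟨OpenPartialHomeomorph.refl G, fun _ => 1, mem_univ _, continuousOn_const,
    fun _ _ => one_pos, fun z _ => ⟨rfl, (one_mul _).symm⟩, fun z _ => mem_univ _⟩

theorem Good.mul {pos : Om → G} {den : Om → ℝ} {h h' : Equiv.Perm Om} {y : Om}
    (hy : Good pos den h y) (hy' : Good pos den h' (h y)) : Good pos den (h' * h) y := by
  obtain ⟨H, m, h1, h2, h3, h4, h5⟩ := hy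
  obtain ⟨H', m', h1', h2', h3', h4', h5'⟩ := hy'
  refine ⟨H.trans H', fun g => m' (H g) * m g, ?_, ?_, ?_, ?_, ?_⟩
  · rw [OpenPartialHomeomorph.trans_source]
    refine ⟨h1, ?_⟩
    rw [mem_preimage, ← (h4 y h1).1]
    exact h1'
  · rw [OpenPartialHomeomorph.trans_source]
    refine ContinuousOn.mul ?_ (h2.mono inter_subset_left)
    exact h2'.comp (H.continuousOn.mono inter_subset_left) fun g hg => hg.2
  · intro g hg
    rw [OpenPartialHomeomorph.trans_source] at hg
    exact mul_pos (h3' _ hg.2) (h3 _ hg.1)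
  · intro z hz
    rw [OpenPartialHomeomorph.trans_source] at hz
    obtain ⟨e1, e2⟩ := h4 z hz.1
    have hz2 : pos (h z) ∈ H'.source := by rw [e1]; exact hz.2
    obtain ⟨e3, e4⟩ := h4' (h z) hz2
    refine ⟨?_, ?_⟩
    · rw [Equiv.Perm.mul_apply, e3, e1]
      rfl
    · rw [Equiv.Perm.mul_apply, e4, e2, e1, mul_assoc]
  · intro z hz
    rw [OpenPartialHomeomorph.trans_target] at hz
    have hz1 := h5' z hz.1
    obtain ⟨e1, -⟩ := h4' _ hz1
    rw [Equiv.apply_symm_apply] at e1
    have e2 : H'.symm (pos z) = pos (h'.symm z) := by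
      rw [e1, H'.left_inv hz1]
    have hz2 : pos (h'.symm z) ∈ H.target := by
      have := hz.2
      rwa [mem_preimage, e2] at this
    have hz3 := h5 _ hz2
    have e3 : ((h' * h).symm z) = h.symm (h'.symm z) := rfl
    rw [e3, OpenPartialHomeomorph.trans_source]
    refine ⟨hz3, ?_⟩
    obtain ⟨e4, -⟩ := h4 _ hz3
    rw [Equiv.apply_symm_apply] at e4
    rw [mem_preimage, ← e4]
    exact hz1

/-- goodness of the group generated -/
theorem good_closure {pos : Om → G} {den : Om → ℝ} {S : Set (Equiv.Perm Om)}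
    (hS : ∀ h ∈ S, ∀ y, Good pos den h y) (hS' : ∀ h ∈ S, ∀ y, Good pos den h⁻¹ y)
    {h : Equiv.Perm Om} (hh : h ∈ Subgroup.closure S) (y : Om) : Good pos den h y := by
  have key : ∀ y, Good pos den h y := by
    induction hh using Subgroup.closure_induction'' with
    | one => exact fun y => Good.one pos den y
    | mem x hx => exact hS x hx
    | inv_mem x hx => exact hS' x hx
    | mul x y _ _ ihx ihy => exact fun z => (ihy z).mul (ihx _)
  exact key y

end Good

end Vale.Agent.P011.H966
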