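import Vale.Agent.P011.H699.Den
import Vale.Agent.P011.H966.Trans

/-!
# Moebius maps on the unitary group of a topological ring with involution; heights (P7(a), P9)

`mobE a b c e y = (c + e * y) * (a + b * y)⁻¹`.  A matrix `(a b; c e)` with inverse
`(a' b'; c' e')`, both preserving the hermitian form `diag(1, -1)` up to a central scalar, acts by
an open partial homeomorphism `mobH` of `unitary E`.  If the entries are in the order `Λ` then
`den (h y) = mod (a + b y) * den y`.
-/

namespace Vale.Agent.P011.H966

open MeasureTheory Filter Topology Set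
open scoped NNReal

open Vale.Agent.P011.H699 (colon den mem_colon colon_le LRing Latt index_mul_mod)

section Alg

variable {E : Type*} [Ring E] [StarRing E]

/-- the matrix `(a b; c e)` preserves `diag(1, -1)` up to a central scalar -/
structure UM (a b c e : E) : Prop where
  lam : ∃ l : E, (∀ x, l * x = x * l) ∧ star a * a = star c * c + l ∧ star e * e = star b * b + l
  cross : star a * b = star c * e

/-- two inverse matrices -/
structure Inv2 (a b c e a' b' c' e' : E) : Prop where
  aa : a' * a + b' * c = 1
  ab : a' * b + b' * e = 0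
  ba : c' * a + e' * c = 0
  bb : c' * b + e' * e = 1

theorem UM.eq {a b c e : E} (h : UM a b c e) {y : E} (hy : star y * y = 1) :
    star (c + e * y) * (c + e * y) = star (a + b * y) * (a + b * y) := by
  obtain ⟨l, hl, h1, h2⟩ := h.lam
  have h3 := h.cross
  have h4 : star b * a = star e * c := by
    have := congrArg star h3
    rwa [star_mul, star_mul, star_star, star_star] at this
  have e1 : star (a + b * y) * (a + b * y) = star a * a + star a * b * y + star y * (star b * a)
      + star y * (star b * b) * y := by
    rw [star_add, star_mul]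
    noncomm_ring
  have e2 : star (c + e * y) * (c + e * y) = star c * c + star c * e * y + star y * (star e * c)
      + star y * (star e * e) * y := by
    rw [star_add, star_mul]
    noncomm_ring
  have e3 : star y * l * y = l := by
    rw [← hl, mul_assoc, hy, mul_one]
  rw [e1, e2, h1, h2, h3, h4, mul_add, add_mul, e3]
  abel

omit [StarRing E] in
theorem isUnit_rinv {x : E} (h : IsUnit x) : IsUnit (Ring.inverse x) := by
  obtain ⟨u, rfl⟩ := h
  rw [Ring.inverse_unit]
  exact (u⁻¹).isUnit

/-- the Moebius map -/
noncomputable def mobE (a b c e y : E) : E := (c + e * y) * Ring.inverse (a + b * y)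

omit [StarRing E] in
theorem mobE_mul {a b c e y : E} (hp : IsUnit (a + b * y)) :
    mobE a b c e y * (a + b * y) = c + e * y := by
  rw [mobE, mul_assoc, Ring.inverse_mul_cancel _ hp, mul_one]

omit [StarRing E] in
theorem isUnit_mobE {a b c e y : E} (hp : IsUnit (a + b * y)) (hq : IsUnit (c + e * y)) :
    IsUnit (mobE a b c e y) := hq.mul (isUnit_rinv hp)

theorem star_mobE_mul {a b c e : E} (h : UM a b c e) {y : E} (hy : star y * y = 1)
    (hp : IsUnit (a + b * y)) : star (mobE a b c e y) * mobE a b c e y = 1 := by
  have h1 := mobE_mul (c := c) (e := e) hp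
  have h2 : star (a + b * y) * (star (mobE a b c e y) * mobE a b c e y) * (a + b * y)
      = star (a + b * y) * (a + b * y) := by
    have : star (a + b * y) * (star (mobE a b c e y) * mobE a b c e y) * (a + b * y)
        = star (mobE a b c e y * (a + b * y)) * (mobE a b c e y * (a + b * y)) := by
      rw [star_mul]
      noncomm_ring
    rw [this, h1, h.eq hy]
  have h3 : star (a + b * y) * (star (mobE a b c e y) * mobE a b c e y) = star (a + b * y) :=
    hp.mul_right_cancel h2
  have h4 : star (a + b * y) * (star (mobE a b c e y) * mobE a b c e y)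
      = star (a + b * y) * 1 := by rw [h3, mul_one]
  exact hp.star.mul_left_cancel h4

theorem mobE_mem {a b c e : E} (h : UM a b c e) {y : E} (hy : star y * y = 1)
    (hp : IsUnit (a + b * y)) (hq : IsUnit (c + e * y)) : mobE a b c e y ∈ unitary E := by
  have h1 := star_mobE_mul h hy hp
  have hu := isUnit_mobE hp hq
  refine Unitary.mem_iff.2 ⟨h1, ?_⟩
  obtain ⟨u, hu⟩ := hu
  rw [← hu] at h1 ⊢
  have h2 : star (u : E) = ((u⁻¹ : Eˣ) : E) := by
    rw [← mul_one (star (u : E)), ← u.mul_inv, ← mul_assoc, h1, one_mul]
  rw [h2, u.mul_inv]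

variable {a b c e a' b' c' e' : E}

omit [StarRing E] in
theorem Inv2.den_mul (H : Inv2 a b c e a' b' c' e') {y : E} (hp : IsUnit (a + b * y)) :
    (a' + b' * mobE a b c e y) * (a + b * y) = 1 := by
  have h1 := mobE_mul (c := c) (e := e) hp
  calc (a' + b' * mobE a b c e y) * (a + b * y)
      = a' * (a + b * y) + b' * (mobE a b c e y * (a + b * y)) := by noncomm_ring
    _ = (a' * a + b' * c) + (a' * b + b' * e) * y := by rw [h1]; noncomm_ring
    _ = 1 := by rw [H.aa, H.ab, zero_mul, add_zero]

omit [StarRing E] in
theorem Inv2.num_mul (H : Inv2 a b c e a' b' c' e') {y : E} (hp : IsUnit (a + b * y)) :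
    (c' + e' * mobE a b c e y) * (a + b * y) = y := by
  have h1 := mobE_mul (c := c) (e := e) hp
  calc (c' + e' * mobE a b c e y) * (a + b * y)
      = c' * (a + b * y) + e' * (mobE a b c e y * (a + b * y)) := by noncomm_ring
    _ = (c' * a + e' * c) + (c' * b + e' * e) * y := by rw [h1]; noncomm_ring
    _ = y := by rw [H.ba, H.bb, zero_add, one_mul]

omit [StarRing E] in
theorem Inv2.den_eq (H : Inv2 a b c e a' b' c' e') {y : E} (hp : IsUnit (a + b * y)) :
    a' + b' * mobE a b c e y = Ring.inverse (a + b * y) := by
  have h1 := H.den_mul hp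
  calc a' + b' * mobE a b c e y
      = (a' + b' * mobE a b c e y) * ((a + b * y) * Ring.inverse (a + b * y)) := by
        rw [Ring.mul_inverse_cancel _ hp, mul_one]
    _ = _ := by rw [← mul_assoc, h1, one_mul]

omit [StarRing E] in
theorem Inv2.num_eq (H : Inv2 a b c e a' b' c' e') {y : E} (hp : IsUnit (a + b * y)) :
    c' + e' * mobE a b c e y = y * Ring.inverse (a + b * y) := by
  have h1 := H.num_mul hp
  calc c' + e' * mobE a b c e y
      = (c' + e' * mobE a b c e y) * ((a + b * y) * Ring.inverse (a + b * y)) := by
        rw [Ring.mul_inverse_cancel _ hp, mul_one]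
    _ = _ := by rw [← mul_assoc, h1]

omit [StarRing E] in
theorem Inv2.left_inv (H : Inv2 a b c e a' b' c' e') {y : E} (hp : IsUnit (a + b * y)) :
    mobE a' b' c' e' (mobE a b c e y) = y := by
  have h1 := H.den_eq hp
  rw [mobE, H.num_eq hp, h1, mul_assoc]
  obtain ⟨u, hu⟩ := hp
  rw [← hu, Ring.inverse_unit, Ring.inverse_unit, inv_inv, Units.inv_mul, mul_one]

end Alg

section Top

variable {E : Type*} [Ring E] [StarRing E] [TopologicalSpace E] [IsTopologicalRing E]

/-- the hypotheses on the ring: units are open and the inverse is continuous -/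
structure UTop (E : Type*) [Ring E] [TopologicalSpace E] : Prop where
  op : IsOpen {x : E | IsUnit x}
  inv : ContinuousOn Ring.inverse {x : E | IsUnit x}

variable {a b c e a' b' c' e' : E}

omit [TopologicalSpace E] [IsTopologicalRing E] in
theorem unitary_star_mul (y : unitary E) : star (y : E) * (y : E) = 1 :=
  Unitary.star_mul_self_of_mem y.2

omit [StarRing E] in
theorem continuousOn_mobE (hE : UTop E) :
    ContinuousOn (fun y : E => mobE a b c e y) {y | IsUnit (a + b * y)} := by
  refine ContinuousOn.mul ?_ ?_
  · exact (continuous_const.add (continuous_const.mul continuous_id)).continuousOn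
  · exact hE.inv.comp (continuous_const.add (continuous_const.mul continuous_id)).continuousOn
      fun y hy => hy

open Classical in
/-- the Moebius map on the unitary group -/
noncomputable def mobU (hM : UM a b c e) (y : unitary E) : unitary E :=
  if h : IsUnit (a + b * (y : E)) ∧ IsUnit (c + e * (y : E)) then
    ⟨mobE a b c e y, mobE_mem hM (unitary_star_mul y) h.1 h.2⟩ else 1

/-- the source -/
def src (a b c e : E) : Set (unitary E) :=
  {y | IsUnit (a + b * (y : E)) ∧ IsUnit (c + e * (y : E))}

omit [IsTopologicalRing E] in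
theorem mobU_coe (hM : UM a b c e) {y : unitary E} (hy : y ∈ src a b c e) :
    ((mobU hM y : unitary E) : E) = mobE a b c e y := by
  have hy' : IsUnit (a + b * (y : E)) ∧ IsUnit (c + e * (y : E)) := hy
  rw [mobU, dif_pos hy']

theorem isOpen_src (hE : UTop E) (a b c e : E) : IsOpen (src a b c e) := by
  refine IsOpen.inter ?_ ?_
  · exact hE.op.preimage (continuous_const.add (continuous_const.mul continuous_subtype_val))
  · exact hE.op.preimage (continuous_const.add (continuous_const.mul continuous_subtype_val))

omit [IsTopologicalRing E] in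
theorem mobU_mem (hM : UM a b c e) (H : Inv2 a b c e a' b' c' e') {y : unitary E}
    (hy : y ∈ src a b c e) : mobU hM y ∈ src a' b' c' e' := by
  have hy' : IsUnit (a + b * (y : E)) ∧ IsUnit (c + e * (y : E)) := hy
  refine ⟨?_, ?_⟩
  · rw [mobU_coe hM hy, H.den_eq hy'.1]
    exact isUnit_rinv hy'.1
  · rw [mobU_coe hM hy, H.num_eq hy'.1]
    refine IsUnit.mul ?_ (isUnit_rinv hy'.1)
    exact ⟨Unitary.toUnits y, rfl⟩

omit [IsTopologicalRing E] in
theorem mobU_left_inv (hM : UM a b c e) (hM' : UM a' b' c' e') (H : Inv2 a b c e a' b' c' e')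
    {y : unitary E} (hy : y ∈ src a b c e) : mobU hM' (mobU hM y) = y := by
  apply Subtype.ext
  rw [mobU_coe hM' (mobU_mem hM H hy), mobU_coe hM hy]
  exact H.left_inv hy.1

theorem continuousOn_mobU (hE : UTop E) (hM : UM a b c e) :
    ContinuousOn (mobU hM) (src a b c e) := by
  rw [Topology.IsInducing.subtypeVal.continuousOn_iff]
  refine ContinuousOn.congr (f := fun y : unitary E => mobE a b c e (y : E)) ?_
    fun y hy => mobU_coe hM hy
  exact (continuousOn_mobE hE).comp continuous_subtype_val.continuousOn fun y hy => hy.1

/-- the Moebius map as an open partial homeomorphism of the unitary group -/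
noncomputable def mobH (hE : UTop E) (hM : UM a b c e) (hM' : UM a' b' c' e')
    (H : Inv2 a b c e a' b' c' e') (H' : Inv2 a' b' c' e' a b c e) :
    OpenPartialHomeomorph (unitary E) (unitary E) where
  toFun := mobU hM
  invFun := mobU hM'
  source := src a b c e
  target := src a' b' c' e'
  map_source' _ hy := mobU_mem hM H hy
  map_target' _ hy := mobU_mem hM' H' hy
  left_inv' _ hy := mobU_left_inv hM hM' H hy
  right_inv' _ hy := mobU_left_inv hM' hM H' hy
  open_source := isOpen_src hE a b c e
  open_target := isOpen_src hE a' b' c' e'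
  continuousOn_toFun := continuousOn_mobU hE hM
  continuousOn_invFun := continuousOn_mobU hE hM'

end Top

section Mod

variable {E : Type*} [Ring E] [TopologicalSpace E] [IsTopologicalRing E] [LocallyCompactSpace E]

open Classical in
/-- the module of the multiplication by `x` -/
noncomputable def modR (x : E) : ℝ :=
  if h : IsUnit x then ((distribHaarChar E h.unit : ℝ≥0) : ℝ) else 1

theorem modR_unit (u : Eˣ) : modR (u : E) = ((distribHaarChar E u : ℝ≥0) : ℝ) := by
  have h : IsUnit (u : E) := u.isUnit
  rw [modR, dif_pos h]
  congr 2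
  exact Units.ext h.unit_spec

theorem modR_pos {x : E} (h : IsUnit x) : 0 < modR x := by
  obtain ⟨u, rfl⟩ := h
  rw [modR_unit]
  exact_mod_cast (distribHaarChar_pos (A := E) (g := u))

theorem continuousOn_modR (hE : UTop E) (hmod : Continuous fun u : Eˣ => distribHaarChar E u) :
    ContinuousOn (modR : E → ℝ) {x | IsUnit x} := by
  rw [continuousOn_iff_continuous_domRestrict]
  let f : {x : E | IsUnit x} → Eˣ := fun x => (x.2 : IsUnit (x : E)).unit
  have hf : Continuous f := by
    rw [Units.continuous_iff]
    refine ⟨?_, ?_⟩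
    · exact continuous_subtype_val.congr fun x => ((x.2 : IsUnit (x : E)).unit_spec).symm
    · have h1 := continuousOn_iff_continuous_domRestrict.1 hE.inv
      refine h1.congr fun x => ?_
      change Ring.inverse (x : E) = (((x.2 : IsUnit (x : E)).unit⁻¹ : Eˣ) : E)
      rw [← Ring.inverse_unit, IsUnit.unit_spec]
  have h2 : Continuous fun x : {x : E | IsUnit x} => ((distribHaarChar E (f x) : ℝ≥0) : ℝ) :=
    NNReal.continuous_coe.comp (hmod.comp hf)
  refine h2.congr fun x => ?_
  change _ = modR (x : E)
  have h3 := modR_unit (f x)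
  rw [← h3]
  rfl

end Mod

end Vale.Agent.P011.H966
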