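import Vale.Agent.P011.H966.Mob

/-!
# Heights and positions under Moebius maps: `Good`
-/

namespace Vale.Agent.P011.H966

open MeasureTheory Filter Topology Set
open scoped NNReal

open Vale.Agent.P011.H699 (colon den mem_colon colon_le LRing Latt index_mul_mod)

section Map

variable {E D : Type*} [Ring E] [Ring D]

theorem Inv2.map {a b c e a' b' c' e' : D} (H : Inv2 a b c e a' b' c' e') (j : D →+* E) :
    Inv2 (j a) (j b) (j c) (j e) (j a') (j b') (j c') (j e') where
  aa := by rw [← map_mul, ← map_mul, ← map_add, H.aa, map_one]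
  ab := by rw [← map_mul, ← map_mul, ← map_add, H.ab, map_zero]
  ba := by rw [← map_mul, ← map_mul, ← map_add, H.ba, map_zero]
  bb := by rw [← map_mul, ← map_mul, ← map_add, H.bb, map_one]

end Map

section Den

variable {E : Type*} [Ring E] [TopologicalSpace E] [IsTopologicalRing E] [T2Space E]
  [LocallyCompactSpace E] {Λ : Subring E}

/-- **The height cocycle.** -/
theorem den_mob (hΛ : LRing Λ) {a b c e a' b' c' e' : E} (H : Inv2 a b c e a' b' c' e')
    (ha : a ∈ Λ) (hb : b ∈ Λ) (hc : c ∈ Λ) (he : e ∈ Λ) (ha' : a' ∈ Λ) (hb' : b' ∈ Λ)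
    (hc' : c' ∈ Λ) (he' : e' ∈ Λ) {y z : E} (hy : den Λ y ≠ 0) (hz : den Λ z ≠ 0) (d : Eˣ)
    (hd : (d : E) = a + b * y) (hzd : z * d = c + e * y) :
    (den Λ z : ℝ) = ((distribHaarChar E d : ℝ≥0) : ℝ) * (den Λ y : ℝ) := by
  borelize E
  have h1 : ∀ x, (d : E) * x = a * x + b * (y * x) := fun x => by rw [hd]; noncomm_ring
  have h2 : ∀ x, z * ((d : E) * x) = c * x + e * (y * x) := fun x => by
    rw [← mul_assoc, hzd]; noncomm_ring
  have h3 : ∀ x, x = a' * ((d : E) * x) + b' * (z * ((d : E) * x)) := by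
    intro x
    calc x = (a' * a + b' * c) * x + (a' * b + b' * e) * (y * x) := by
          rw [H.aa, H.ab]; noncomm_ring
      _ = _ := by rw [h2, h1]; noncomm_ring
  have h4 : ∀ x, y * x = c' * ((d : E) * x) + e' * (z * ((d : E) * x)) := by
    intro x
    calc y * x = (c' * a + e' * c) * x + (c' * b + e' * e) * (y * x) := by
          rw [H.ba, H.bb]; noncomm_ring
      _ = _ := by rw [h2, h1]; noncomm_ring
  have h5 : ∀ x, x ∈ colon Λ y ↔ (d : E) * x ∈ colon Λ z := by
    intro x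
    rw [mem_colon, mem_colon]
    constructor
    · rintro ⟨hx, hyx⟩
      rw [h2, h1]
      exact ⟨Λ.add_mem (Λ.mul_mem ha hx) (Λ.mul_mem hb hyx),
        Λ.add_mem (Λ.mul_mem hc hx) (Λ.mul_mem he hyx)⟩
    · rintro ⟨hx, hzx⟩
      refine ⟨?_, ?_⟩
      · rw [h3 x]
        exact Λ.add_mem (Λ.mul_mem ha' hx) (Λ.mul_mem hb' hzx)
      · rw [h4 x]
        exact Λ.add_mem (Λ.mul_mem hc' hx) (Λ.mul_mem he' hzx)
  have h6 := (index_mul_mod hΛ.latt (colon_le Λ y) (colon_le Λ z) hy d h5 (fun w hw => by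
    refine ⟨((d⁻¹ : Eˣ) : E) * w, ?_, ?_⟩
    · rw [h5, ← mul_assoc, Units.mul_inv, one_mul]
      exact hw
    · rw [← mul_assoc, Units.mul_inv, one_mul])).2 hz
  have h7 : ((den Λ z : ℝ≥0) : ℝ) = ((((colon Λ y).relIndex Λ.toAddSubgroup : ℝ≥0)
      * distribHaarChar E d : ℝ≥0) : ℝ) := by
    rw [← h6]
    rfl
  rw [NNReal.coe_mul, NNReal.coe_natCast, NNReal.coe_natCast, mul_comm] at h7
  exact h7

end Den

section Good

variable {E : Type*} [Ring E] [StarRing E] [TopologicalSpace E] [IsTopologicalRing E] [T2Space E]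
  [LocallyCompactSpace E] {Λ : Subring E}
  {D : Type*} [DivisionRing D] {U : Subgroup Dˣ}

/-- **Moebius permutations with entries in the order are good at every point.** -/
theorem good_of_mob (hE : UTop E) (hmod : Continuous fun u : Eˣ => distribHaarChar E u)
    (hΛ : LRing Λ) (j : D →+* E) (pos : U → unitary E)
    (hpos : ∀ y : U, ((pos y : unitary E) : E) = j ((y : Dˣ) : D))
    (hden : ∀ y : U, den Λ (j ((y : Dˣ) : D)) ≠ 0)
    {a b c e a' b' c' e' : D} (H : Inv2 a b c e a' b' c' e') (H' : Inv2 a' b' c' e' a b c e)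
    (hM : UM (j a) (j b) (j c) (j e)) (hM' : UM (j a') (j b') (j c') (j e'))
    (hm : ∀ x ∈ ({a, b, c, e, a', b', c', e'} : Set D), j x ∈ Λ)
    (h : Equiv.Perm U) (hh : ∀ y : U, a + b * ((y : Dˣ) : D) ≠ 0 ∧
      (((h y : U) : Dˣ) : D) = (c + e * ((y : Dˣ) : D)) * (a + b * ((y : Dˣ) : D))⁻¹) (y : U) :
    Good pos (fun y : U => (den Λ (j ((y : Dˣ) : D)) : ℝ)) h y := by
  have hq : ∀ y : U, c + e * ((y : Dˣ) : D) ≠ 0 := by
    intro y h0
    have h1 := (hh y).2
    rw [h0, zero_mul] at h1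
    exact ((h y : U) : Dˣ).ne_zero h1
  have hju : ∀ x : D, x ≠ 0 → IsUnit (j x) := fun x hx => (IsUnit.mk0 x hx).map j
  have hsrc : ∀ y : U, pos y ∈ src (j a) (j b) (j c) (j e) := by
    intro y
    refine ⟨?_, ?_⟩
    · rw [hpos, ← map_mul, ← map_add]
      exact hju _ (hh y).1
    · rw [hpos, ← map_mul, ← map_add]
      exact hju _ (hq y)
  have hmul : ∀ y : U, (((h y : U) : Dˣ) : D) * (a + b * ((y : Dˣ) : D))
      = c + e * ((y : Dˣ) : D) := by
    intro y
    rw [(hh y).2, mul_assoc, inv_mul_cancel₀ (hh y).1, mul_one]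
  refine ⟨mobH hE hM hM' (H.map j) (H'.map j),
    fun g => modR (j a + j b * (g : E)), hsrc y, ?_, ?_, ?_, ?_⟩
  · refine (continuousOn_modR hE hmod).comp ?_ fun g hg => hg.1
    exact (continuous_const.add (continuous_const.mul continuous_subtype_val)).continuousOn
  · intro g hg
    exact modR_pos hg.1
  · intro z hz
    refine ⟨?_, ?_⟩
    · apply Subtype.ext
      change ((pos (h z) : unitary E) : E) = ((mobU hM (pos z) : unitary E) : E)
      rw [mobU_coe hM hz, hpos, mobE]
      have h1 : j (((h z : U) : Dˣ) : D) * (j a + j b * (pos z : E))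
          = j c + j e * (pos z : E) := by
        rw [hpos, ← map_mul, ← map_add, ← map_mul, ← map_mul, ← map_add, hmul]
      rw [← h1, mul_assoc, Ring.mul_inverse_cancel _ hz.1, mul_one]
    · obtain ⟨d, hd⟩ := hz.1
      simp only
      rw [← hd, modR_unit]
      rw [hpos] at hd
      refine den_mob hΛ (H.map j) (hm a (by simp)) (hm b (by simp)) (hm c (by simp))
        (hm e (by simp)) (hm a' (by simp)) (hm b' (by simp)) (hm c' (by simp)) (hm e' (by simp))
        (hden z) (hden (h z)) d hd ?_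
      rw [hd, ← map_mul, ← map_add, ← map_mul, ← map_mul, ← map_add, hmul]
  · intro z _
    exact hsrc _

end Good

end Vale.Agent.P011.H966
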