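import Vale.Agent.P011.H966.Trans
import Vale.Agent.P011.H674.OneStep

/-!
# Words in the letters `L u`, `T v`, `W g` with entries in a subring
-/

namespace Vale.Agent.P011.H966

open Filter Topology Set
open Vale.Agent.P011.H674.Pair

universe u

variable {D : Type u} [DivisionRing D] [StarRing D] {U : Subgroup Dˣ} {δ : D} (h : Chart U δ)

/-- the letters with entries in `Lam` -/
def LetIn (Lam : Set D) : Set (Equiv.Perm U) :=
  {p | (∃ u : U, ((u : Dˣ) : D) ∈ Lam ∧ ((u⁻¹ : U) : Dˣ) ∈ (Units.val ⁻¹' Lam) ∧ p = h.L u) ∨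
    (∃ v ∈ Lam, -v ∈ Lam ∧ star v = v ∧ p = h.T v) ∨
    (∃ g ∈ Lam, g⁻¹ ∈ Lam ∧ g ≠ 0 ∧ p = h.W g)}

theorem LetIn_mono {Lam Lam' : Set D} (hL : Lam ⊆ Lam') : LetIn h Lam ⊆ LetIn h Lam' := by
  rintro p (⟨u, h1, h2, rfl⟩ | ⟨v, h1, h2, h3, rfl⟩ | ⟨g, h1, h2, h3, rfl⟩)
  · exact Or.inl ⟨u, hL h1, hL h2, rfl⟩
  · exact Or.inr (Or.inl ⟨v, hL h1, hL h2, h3, rfl⟩)
  · exact Or.inr (Or.inr ⟨g, hL h1, hL h2, h3, rfl⟩)

theorem inv_mem_LetIn {Lam : Set D} {p : Equiv.Perm U} (hp : p ∈ LetIn h Lam) :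
    p⁻¹ ∈ LetIn h Lam := by
  obtain (⟨u, h1, h2, rfl⟩ | ⟨v, h1, h2, h3, rfl⟩ | ⟨g, h1, h2, h3, rfl⟩) := hp
  · exact Or.inl ⟨u⁻¹, h2, by rw [inv_inv]; exact h1, (h.L_inv u).symm⟩
  · exact Or.inr (Or.inl ⟨-v, h2, by rw [neg_neg]; exact h1, by rw [star_neg, h3],
      (h.T_neg h3).symm⟩)
  · exact Or.inr (Or.inr ⟨g⁻¹, h2, by rw [inv_inv]; exact h1, inv_ne_zero h3, (h.W_inv h3).symm⟩)

/-- if the letters with entries in `Lam` are good, so are the words -/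
theorem good_words {G : Type*} [TopologicalSpace G] {pos : U → G} {den : U → ℝ} {Lam : Set D}
    (hL : ∀ u : U, ((u : Dˣ) : D) ∈ Lam → ∀ y, Good pos den (h.L u) y)
    (hT : ∀ v ∈ Lam, star v = v → ∀ y, Good pos den (h.T v) y)
    (hW : ∀ g ∈ Lam, g⁻¹ ∈ Lam → g ≠ 0 → ∀ y, Good pos den (h.W g) y)
    {p : Equiv.Perm U} (hp : p ∈ Subgroup.closure (LetIn h Lam)) (y : U) : Good pos den p y := by
  have key : ∀ p ∈ LetIn h Lam, ∀ y, Good pos den p y := by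
    rintro p (⟨u, h1, h2, rfl⟩ | ⟨v, h1, h2, h3, rfl⟩ | ⟨g, h1, h2, h3, rfl⟩) y
    · exact hL u h1 y
    · exact hT v h1 h3 y
    · exact hW g h1 h2 h3 y
  exact good_closure key (fun p hp => key _ (inv_mem_LetIn h hp)) hp y

/-- the entries of one word `L t T v W e` or `(L t)⁻¹ T v W e` -/
theorem exists_entries {E : Subring D} (hE : CStar δ E) (t : U) {p : Equiv.Perm U}
    (hp : ∃ π ∈ h.PE hE, p = h.L t * π ∨ p = (h.L t)⁻¹ * π) :
    ∃ F : Finset D, ∀ Lam : Set D, (F : Set D) ⊆ Lam → p ∈ Subgroup.closure (LetIn h Lam) := by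
  classical
  obtain ⟨π, hπ, hp⟩ := hp
  obtain ⟨v, -, hv, e, -, he, rfl⟩ := (h.mem_PE hE).1 hπ
  refine ⟨{((t : Dˣ) : D), (((t⁻¹ : U) : Dˣ) : D), v, -v, e, e⁻¹}, fun Lam hF => ?_⟩
  have hLt : h.L t ∈ Subgroup.closure (LetIn h Lam) :=
    Subgroup.subset_closure (Or.inl ⟨t, hF (by simp), hF (by simp), rfl⟩)
  have hπ' : h.T v * h.W e ∈ Subgroup.closure (LetIn h Lam) :=
    Subgroup.mul_mem _
      (Subgroup.subset_closure (Or.inr (Or.inl ⟨v, hF (by simp), hF (by simp), hv, rfl⟩)))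
      (Subgroup.subset_closure (Or.inr (Or.inr ⟨e, hF (by simp), hF (by simp), he, rfl⟩)))
  rcases hp with rfl | rfl
  · exact Subgroup.mul_mem _ hLt hπ'
  · exact Subgroup.mul_mem _ (Subgroup.inv_mem _ hLt) hπ'

/-- finitely many words -/
theorem exists_entries_fin {E : Subring D} (hE : CStar δ E) (t : U) {n : ℕ}
    (p : Fin n → Equiv.Perm U)
    (hp : ∀ j, ∃ π ∈ h.PE hE, p j = h.L t * π ∨ p j = (h.L t)⁻¹ * π) :
    ∃ F : Finset D, ∀ Lam : Set D, (F : Set D) ⊆ Lam → ∀ j,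
      p j ∈ Subgroup.closure (LetIn h Lam) := by
  classical
  choose F hF using fun j => exists_entries h hE t (hp j)
  refine ⟨Finset.univ.biUnion F, fun Lam hL j => hF j Lam (Subset.trans ?_ hL)⟩
  intro x hx
  simp only [Finset.coe_biUnion, mem_iUnion]
  exact ⟨j, by simp, hx⟩

end Vale.Agent.P011.H966
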