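import Vale.Agent.P011.H966.Loc
import Vale.Agent.P011.H966.Words
import Vale.Agent.P011.H966.LettersBC
import Vale.Agent.P011.H261.M6NF
import Vale.Agent.P011.H380.ChoiceS
import Vale.Agent.P011.H210.Inst

/-!
# NE for number fields, from the limit and the lower bound (assembly of M8)
-/

set_option linter.unusedSectionVars false

namespace Vale.Agent.P011.H966

open MeasureTheory Filter Topology Set Module NumberField IsDedekindDomain
open scoped CompactlySupported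
open Vale.Agent.P011.H544 Vale.Agent.P011.H261
open Vale.Agent.P011.H380.UpBC hiding Good
open Vale.Agent.P011.H674.Pair
open Vale.Agent.P011.H210 (SR MG exists_base_pair PE_le L_mem)

/-- The base points: finitely many maps in `MG` and a point which all of them map to split regular
elements. -/
theorem hbase_pair {k F D ι : Type*} [Field k] [Infinite k] [Field F] [DivisionRing D]
    [StarRing D] [Algebra k D] [Fintype ι] [DecidableEq ι] {U : Subgroup Dˣ} {δ : D}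
    (h : Chart U δ) {E : Subring D} (hE : CStar δ E) (φ : k →+* F) (f : D →+* Matrix ι ι F)
    (hφ : ∀ c, f (algebraMap k D c) = Matrix.scalar ι (φ c))
    (hst : ∀ (c : k) (x : D), star (c • x) = c • star x)
    {σ : D} (hσE : σ ∈ E) (hσs : star σ = σ) (hsr : f σ ∈ SR ι F)
    (hkE : ∀ c : k, algebraMap k D c ∈ E) {t : U} (ht : ((t : Dˣ) : D) ∈ E)
    (n : ℕ) (p : Fin n → Equiv.Perm U)
    (hp : ∀ j, ∃ π ∈ h.PE hE, p j = h.L t * π ∨ p j = (h.L t)⁻¹ * π) :
    ∃ x0 ∈ {y : U | f ((y : Dˣ) : D) ∈ SR ι F}, ∀ j,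
      p j x0 ∈ {y : U | f ((y : Dˣ) : D) ∈ SR ι F} := by
  have hpm : ∀ j, p j ∈ MG U hE := by
    intro j
    obtain ⟨π, hπ, h1 | h1⟩ := hp j
    · rw [h1]
      exact mul_mem (L_mem h hE ht) (PE_le h hE hπ)
    · rw [h1]
      exact mul_mem (inv_mem (L_mem h hE ht)) (PE_le h hE hπ)
  obtain ⟨c₀, c₁, s, hs, -, -, h1⟩ := exists_base_pair h hE φ f hφ hst hσE hσs hsr hkE
    (fun i : Option (Fin n) => (i.elim 1 p : Equiv.Perm U)) (by
      rintro (_ | i)
      · exact one_mem _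
      · exact hpm i)
  exact ⟨h.cayU hs, h1 none, fun j => h1 (some j)⟩

variable {k D : Type} [Field k] [NumberField k] [DivisionRing D] [StarRing D] [Algebra k D]
  [StarLin k D] {N : ℕ} (B : Basis (Fin N) k D)

/-- goodness of the words, number fields -/
theorem good_words_nf {δ : D} (h : Chart (H976.UD D) δ) (S : Finset (HeightOneSpectrum (𝓞 k)))
    (hδ : δ ∈ ordO B (OS k S)) (hz : (4 * (δ * δ))⁻¹ ∈ ordO B (OS k S))
    (h4 : (4 : D)⁻¹ ∈ ordO B (OS k S)) {p : Equiv.Perm (H976.UD D)}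
    (hp : p ∈ Subgroup.closure (LetIn h (ordO B (OS k S) : Set D))) (y : H976.UD D) :
    Good (posS B S) (denS B S) p y :=
  good_words h
    (fun u hu y => good_L (bcT B (KS k S)) (good_KS k S) (isOrd_S B S) h u hu y)
    (fun v hv hv' y => good_T (bcT B (KS k S)) (good_KS k S) (isOrd_S B S) h hv' hv hδ hz y)
    (fun g hg hg' hg0 y => good_W (bcT B (KS k S)) (good_KS k S) (isOrd_S B S) h hg0 hg hg' h4 y)
    hp y

/-- the limit statement at one set of places -/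
def LimAt {ι F Q : Type*} [Fintype ι] [DecidableEq ι] [Field F] [Group Q]
    (f₀ : D →+* Matrix ι ι F) (c : H976.UD D → Q) (R : Subgroup Q)
    (Tk : k → Equiv.Perm (H976.UD D)) (S : Finset (HeightOneSpectrum (𝓞 k))) : Prop :=
  ∃ X0 : Set (unitary (BE B (KS k S))), IsOpen X0 ∧
    (∀ y : H976.UD D, f₀ ((y : Dˣ) : D) ∈ SR ι F → posS B S y ∈ X0) ∧
    ∀ b, ∀ ρ ∈ R, ∀ a a' : Q, ∀ φ : C_c(unitary (BE B (KS k S)), ℝ), tsupport φ ⊆ X0 →
      Tendsto (fun x : ℝ =>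
        ∑' y : H976.UD D, (x - 1) * denS B S y ^ (-x) *
          ({y | c y = a ∧ c (Tk b y) = a'}.indicator 1 y * φ (posS B S y)) -
        ∑' y : H976.UD D, (x - 1) * denS B S y ^ (-x) *
          ({y | c y = ρ * a * ρ⁻¹ ∧ c (Tk b y) = ρ * a' * ρ⁻¹}.indicator 1 y *
            φ (posS B S y))) (𝓝[>] 1) (𝓝 0)

/-- the lower bound at one set of places -/
def LowAt (S : Finset (HeightOneSpectrum (𝓞 k))) : Prop :=
  ∀ x0 : H976.UD D, x0 ≠ 1 → ∀ V : Set (unitary (BE B (KS k S))), IsOpen V → posS B S x0 ∈ V →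
    ∃ c > 0, ∀ᶠ x in 𝓝[>] (1 : ℝ), ∃ F : Finset (H976.UD D), (∀ y ∈ F, posS B S y ∈ V) ∧
      c ≤ ∑ y ∈ F, (x - 1) * denS B S y ^ (-x)

theorem one_notMem_SR {ι F : Type*} [Fintype ι] [DecidableEq ι] [Nontrivial ι] [Field F] :
    (1 : Matrix ι ι F) ∉ SR ι F := by
  rintro ⟨P, a, ha, h⟩
  have e1 : ((P⁻¹ : (Matrix ι ι F)ˣ) : Matrix ι ι F) * (P : Matrix ι ι F) = 1 := P.inv_mul
  have h1 : Matrix.diagonal a = (1 : Matrix ι ι F) := by
    calc Matrix.diagonal a
        = (((P⁻¹ : (Matrix ι ι F)ˣ) : Matrix ι ι F) * (P : Matrix ι ι F)) * Matrix.diagonal a *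
          (((P⁻¹ : (Matrix ι ι F)ˣ) : Matrix ι ι F) * (P : Matrix ι ι F)) := by
          rw [e1, one_mul, mul_one]
      _ = ((P⁻¹ : (Matrix ι ι F)ˣ) : Matrix ι ι F) * ((P : Matrix ι ι F) * Matrix.diagonal a *
          ((P⁻¹ : (Matrix ι ι F)ˣ) : Matrix ι ι F)) * (P : Matrix ι ι F) := by
          simp only [mul_assoc]
      _ = ((P⁻¹ : (Matrix ι ι F)ˣ) : Matrix ι ι F) * 1 * (P : Matrix ι ι F) := by rw [← h]
      _ = 1 := by rw [mul_one, e1]
  obtain ⟨i, j, hij⟩ := exists_pair_ne ι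
  refine hij (ha ?_)
  have h2 := congrFun (congrFun h1 i) i
  have h3 := congrFun (congrFun h1 j) j
  rw [Matrix.diagonal_apply_eq, Matrix.one_apply_eq] at h2 h3
  rw [h2, h3]

/-- **NE for number fields, from the limit (M6) and the lower bound (M7).** -/
theorem ne_nf_of {ι F Q : Type*} [Fintype ι] [DecidableEq ι] [Nontrivial ι] [Field F] [Group Q]
    {δ : D} (h : Chart (H976.UD D) δ) {E : Subring D} (hE : CStar δ E) (φ : k →+* F)
    (f₀ : D →+* Matrix ι ι F) (hφ : ∀ c, f₀ (algebraMap k D c) = Matrix.scalar ι (φ c))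
    {σ : D} (hσE : σ ∈ E) (hσs : star σ = σ) (hsr : f₀ σ ∈ SR ι F)
    (hkE : ∀ c : k, algebraMap k D c ∈ E) {t : H976.UD D} (ht : ((t : Dˣ) : D) ∈ E)
    {c : H976.UD D → Q} {R : Subgroup Q} {Tk : k → Equiv.Perm (H976.UD D)}
    (hlim : ∃ S₁ : Finset (HeightOneSpectrum (𝓞 k)), ∀ S, S₁ ⊆ S → LimAt B f₀ c R Tk S)
    (hlow : ∃ S₁ : Finset (HeightOneSpectrum (𝓞 k)), ∀ S, S₁ ⊆ S → LowAt B S) :
    NE c R {p | ∃ π ∈ h.PE hE, p = h.L t * π ∨ p = (h.L t)⁻¹ * π} Tk := by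
  classical
  obtain ⟨S₁, hS₁⟩ := hlim
  obtain ⟨S₂, hS₂⟩ := hlow
  refine ne_of_loc (X1 := {y : H976.UD D | f₀ ((y : Dˣ) : D) ∈ SR ι F})
    (fun n p hp => hbase_pair h hE φ f₀ hφ StarLin.star_smul' hσE hσs hsr hkE ht n p hp)
    fun n p hp => ?_
  obtain ⟨Fs, hFs⟩ := exists_entries_fin h hE t p hp
  obtain ⟨S0, hS0, hS⟩ := H380.ChoiceS.exists_S B (Fs ∪ {δ, (4 * (δ * δ))⁻¹, (4 : D)⁻¹})
    (S₁ ∪ S₂)
  have hin := hS S0 (Finset.Subset.refl _)
  have hsub : ((Fs : Finset D) : Set D) ⊆ (ordO B (OS k S0) : Set D) := fun x hx =>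
    hin x (Finset.mem_union_left _ hx)
  refine ⟨Subgroup.closure (LetIn h (ordO B (OS k S0) : Set D)), fun j => hFs _ hsub j, ?_⟩
  obtain ⟨X0, hX0, hX0', hl⟩ := hS₁ S0 (Finset.union_subset_left hS0)
  have hT2 : T2Space (BE B (KS k S0)) := (bcT B (KS k S0)).t2
  have hLC0 : LocallyCompactSpace (BE B (KS k S0)) := (bcT B (KS k S0)).locallyCompact
  have hCS : ContinuousStar (BE B (KS k S0)) := (bcT B (KS k S0)).continuousStar
  have hLC : LocallyCompactSpace (unitary (BE B (KS k S0))) :=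
    H380.UnitsTop.locallyCompact_unitary _
  refine ⟨unitary (BE B (KS k S0)), inferInstance, inferInstance, hLC, posS B S0, denS B S0, X0,
    fun y => lt_of_lt_of_le one_pos (one_le_denS B S0 y), hX0, fun y hy => hX0' y hy, ?_, ?_,
    fun b ρ hρ a a' φ hφ => hl b ρ hρ a a' φ hφ, fun p hp y => good_words_nf B h S0
      (hin _ (by simp)) (hin _ (by simp)) (hin _ (by simp)) hp y⟩
  · intro K hK
    have hne : δ ≠ star δ := by
      rw [h.star_del]
      intro h0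
      have h1 : 2 * δ = 0 := by
        rw [two_mul]
        nth_rw 1 [h0]
        exact neg_add_cancel δ
      exact mul_ne_zero h.two h.ne h1
    exact hup_nf B S0 h.comm hne K hK
  · intro x0 hx0 V hV hxV
    refine hS₂ S0 (Finset.union_subset_right hS0) x0 (fun h1 => ?_) V hV hxV
    rw [h1] at hx0
    apply one_notMem_SR (ι := ι) (F := F)
    have h2 : f₀ (((1 : H976.UD D) : Dˣ) : D) ∈ SR ι F := hx0
    rwa [show (((1 : H976.UD D) : Dˣ) : D) = 1 from rfl, map_one] at h2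

end Vale.Agent.P011.H966
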