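import Mathlib

/-!
# Positivity of a normal subgroup of finite index (abstract form)

`L` a countable group acting measure preservingly on `(X, μ)`, `f ≥ 0` measurable,
`L₀` a normal subgroup of finite index.  Then

`∫ f * ∑_{v ∈ L} f ∘ v ≤ [L : L₀] * ∫ f * ∑_{v ∈ L₀} f ∘ v`.
-/

namespace Vale.Agent.P011.H966

open MeasureTheory ENNReal

variable {L X : Type*} [Group L] [Countable L] [MeasurableSpace X] [MulAction L X]
  [MeasurableConstSMul L X] {μ : Measure X} [SMulInvariantMeasure L X μ]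

/-- Orbit sum over a subgroup. -/
noncomputable def orb (L₀ : Subgroup L) (f : X → ℝ≥0∞) (x : X) : ℝ≥0∞ :=
  ∑' v : L₀, f ((v : L) • x)

omit [Countable L] [MeasurableSpace X] [MeasurableConstSMul L X] in
theorem orb_smul (L₀ : Subgroup L) (f : X → ℝ≥0∞) (u : L₀) (x : X) :
    orb L₀ f ((u : L) • x) = orb L₀ f x := by
  unfold orb
  have := (Equiv.mulRight u).tsum_eq (fun v : L₀ => f ((v : L) • x))
  rw [← this]
  refine tsum_congr fun v => ?_
  simp [smul_smul]

omit [Countable L] [MeasurableSpace X] [MeasurableConstSMul L X] in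
/-- translating by an element normalising `L₀`. -/
theorem orb_comp (L₀ : Subgroup L) [L₀.Normal] (f : X → ℝ≥0∞) (c : L) (x : X) :
    orb L₀ (fun y => f (c • y)) x = orb L₀ f (c • x) := by
  unfold orb
  have := (MulAut.conjNormal (H := L₀) c).toEquiv.tsum_eq (fun v : L₀ => f ((v : L) • c • x))
  rw [← this]
  refine tsum_congr fun v => ?_
  simp [smul_smul, MulAut.conjNormal_apply, mul_assoc]

theorem measurable_orb (L₀ : Subgroup L) {f : X → ℝ≥0∞} (hf : Measurable f) :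
    Measurable (orb L₀ f) := by
  unfold orb
  exact Measurable.tsum fun v => hf.comp (measurable_const_smul (v : L))

omit [Countable L] [MeasurableSpace X] [MeasurableConstSMul L X] in
theorem le_orb (L₀ : Subgroup L) (f : X → ℝ≥0∞) (x : X) : f x ≤ orb L₀ f x := by
  have := ENNReal.le_tsum (f := fun v : L₀ => f ((v : L) • x)) 1
  simpa [orb] using this

/-- Unfolding inequality. -/
theorem unfold_le (L₀ : Subgroup L) {ψ ψ' G : X → ℝ≥0∞} (hψ : Measurable ψ)
    (hψ' : Measurable ψ') (hG : Measurable G)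
    (hinv : ∀ (v : L₀) x, G ((v : L) • x) = G x)
    (h1 : ∀ᵐ x ∂μ, orb L₀ ψ x ≤ 1) (h2 : ∀ᵐ x ∂μ, G x ≠ 0 → 1 ≤ orb L₀ ψ' x) :
    ∫⁻ x, ψ x * G x ∂μ ≤ ∫⁻ x, ψ' x * G x ∂μ := by
  have step1 : ∫⁻ x, ψ x * G x ∂μ ≤ ∫⁻ x, ∑' v : L₀, ψ x * G x * ψ' ((v : L) • x) ∂μ := by
    refine lintegral_mono_ae ?_
    filter_upwards [h2] with x hx
    rw [ENNReal.tsum_mul_left]
    by_cases h0 : G x = 0
    · simp [h0]
    · calc ψ x * G x = ψ x * G x * 1 := by rw [mul_one]
        _ ≤ ψ x * G x * ∑' v : L₀, ψ' ((v : L) • x) := by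
          gcongr; exact hx h0
  have step2 : ∫⁻ x, ∑' v : L₀, ψ x * G x * ψ' ((v : L) • x) ∂μ
      = ∑' v : L₀, ∫⁻ x, ψ x * G x * ψ' ((v : L) • x) ∂μ := by
    refine lintegral_tsum fun v => ?_
    exact ((hψ.mul hG).mul (hψ'.comp (measurable_const_smul (v : L)))).aemeasurable
  have step3 : ∀ v : L₀, ∫⁻ x, ψ x * G x * ψ' ((v : L) • x) ∂μ
      = ∫⁻ x, ψ (((v⁻¹ : L₀) : L) • x) * G x * ψ' x ∂μ := by
    intro v
    have := (measurePreserving_smul (v : L) μ).lintegral_comp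
      (f := fun y => ψ (((v⁻¹ : L₀) : L) • y) * G y * ψ' y)
      (((hψ.comp (measurable_const_smul _)).mul hG).mul hψ')
    rw [← this]
    refine lintegral_congr fun x => ?_
    simp [hinv v x, smul_smul]
  have step4 : ∑' v : L₀, ∫⁻ x, ψ (((v⁻¹ : L₀) : L) • x) * G x * ψ' x ∂μ
      = ∫⁻ x, ∑' v : L₀, ψ (((v⁻¹ : L₀) : L) • x) * G x * ψ' x ∂μ := by
    refine (lintegral_tsum fun v => ?_).symm
    exact (((hψ.comp (measurable_const_smul _)).mul hG).mul hψ').aemeasurable
  have step5 : ∫⁻ x, ∑' v : L₀, ψ (((v⁻¹ : L₀) : L) • x) * G x * ψ' x ∂μ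
      ≤ ∫⁻ x, ψ' x * G x ∂μ := by
    refine lintegral_mono_ae ?_
    filter_upwards [h1] with x hx
    have e : ∑' v : L₀, ψ (((v⁻¹ : L₀) : L) • x) * G x * ψ' x
        = orb L₀ ψ x * (ψ' x * G x) := by
      unfold orb
      rw [← ENNReal.tsum_mul_right, ← (Equiv.inv L₀).tsum_eq]
      refine tsum_congr fun v => ?_
      simp only [Equiv.inv_apply, inv_inv]
      ring
    rw [e]
    calc orb L₀ ψ x * (ψ' x * G x) ≤ 1 * (ψ' x * G x) := by gcongr
      _ = _ := one_mul _
  calc _ ≤ _ := step1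
    _ = _ := step2
    _ = _ := tsum_congr step3
    _ = _ := step4
    _ ≤ _ := step5

theorem two_mul_le (a b : ℝ≥0∞) : 2 * (a * b) ≤ a * a + b * b := by
  by_cases ha : a = ∞
  · subst ha; simp
  by_cases hb : b = ∞
  · subst hb; simp
  lift a to NNReal using ha
  lift b to NNReal using hb
  norm_cast
  rw [← NNReal.coe_le_coe]
  push_cast
  nlinarith [sq_nonneg ((a : ℝ) - b)]

/-- One coset: `∫ f * F₀(c x) ≤ ∫ f * F₀(x)`. -/
theorem coset_le (L₀ : Subgroup L) [L₀.Normal] {f : X → ℝ≥0∞} (hf : Measurable f) (c : L) :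
    ∫⁻ x, f x * orb L₀ f (c • x) ∂μ ≤ ∫⁻ x, f x * orb L₀ f x ∂μ := by
  by_cases htop : ∫⁻ x, f x * orb L₀ f x ∂μ = ∞
  · rw [htop]; exact le_top
  have hm := measurable_orb L₀ hf
  -- `F₀` is a.e. finite
  have hfin0 : ∀ᵐ x ∂μ, f x ≠ 0 → orb L₀ f x ≠ ∞ := by
    have := ae_lt_top (hf.mul hm) htop
    filter_upwards [this] with x hx h0 hi
    simp [hi, ENNReal.mul_top h0] at hx
  have hfin : ∀ᵐ x ∂μ, orb L₀ f x ≠ ∞ := by
    have hall : ∀ᵐ x ∂μ, ∀ v : L₀, f ((v : L) • x) ≠ 0 → orb L₀ f ((v : L) • x) ≠ ∞ := by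
      rw [ae_all_iff]
      intro v
      exact (measurePreserving_smul (v : L) μ).quasiMeasurePreserving.ae hfin0
    filter_upwards [hall] with x hx hi
    have : ∀ v : L₀, f ((v : L) • x) = 0 := by
      intro v
      by_contra h
      exact hx v h (by rw [orb_smul]; exact hi)
    have h0 : orb L₀ f x = 0 := by
      unfold orb; simp [this]
    rw [h0] at hi
    exact absurd hi (by simp)
  set ψ : X → ℝ≥0∞ := fun x => f x / orb L₀ f x with hψdef
  have hψ : Measurable ψ := hf.div hm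
  have hψF : ∀ᵐ x ∂μ, ψ x * orb L₀ f x = f x := by
    filter_upwards [hfin] with x hx
    by_cases h0 : orb L₀ f x = 0
    · have : f x = 0 := le_antisymm (h0 ▸ le_orb L₀ f x) zero_le
      simp [h0, this]
    · exact ENNReal.div_mul_cancel h0 hx
  have horbψ : ∀ x, orb L₀ f x ≠ 0 → orb L₀ f x ≠ ∞ → orb L₀ ψ x = 1 := by
    intro x h0 hx
    have : orb L₀ ψ x = (orb L₀ f x)⁻¹ * orb L₀ f x := by
      have e : orb L₀ ψ x = ∑' v : L₀, (orb L₀ f x)⁻¹ * f ((v : L) • x) := by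
        refine tsum_congr fun v => ?_
        simp only [hψdef]
        rw [orb_smul, ENNReal.div_eq_inv_mul]
      rw [e, ENNReal.tsum_mul_left]
      rfl
    rw [this, ENNReal.inv_mul_cancel h0 hx]
  have horbψ0 : ∀ x, orb L₀ f x = 0 → orb L₀ ψ x = 0 := by
    intro x h0
    unfold orb at h0 ⊢
    rw [ENNReal.tsum_eq_zero] at h0 ⊢
    intro v
    simp [hψdef, h0 v]
  have h1 : ∀ᵐ x ∂μ, orb L₀ ψ x ≤ 1 := by
    filter_upwards [hfin] with x hx
    by_cases h0 : orb L₀ f x = 0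
    · rw [horbψ0 x h0]; exact zero_le
    · rw [horbψ x h0 hx]
  -- the square at `c x`
  have key : ∫⁻ x, ψ x * (orb L₀ f (c • x) * orb L₀ f (c • x)) ∂μ
      ≤ ∫⁻ x, f x * orb L₀ f x ∂μ := by
    have hG : Measurable (fun x => orb L₀ f (c • x) * orb L₀ f (c • x)) := by
      have := hm.comp (measurable_const_smul c)
      exact this.mul this
    have := unfold_le (μ := μ) L₀ (ψ := ψ) (ψ' := fun x => ψ (c • x))
      (G := fun x => orb L₀ f (c • x) * orb L₀ f (c • x)) hψ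
      (hψ.comp (measurable_const_smul c)) hG ?_ h1 ?_
    · refine this.trans ?_
      have e := (measurePreserving_smul c μ).lintegral_comp
        (f := fun x => ψ x * (orb L₀ f x * orb L₀ f x)) (hψ.mul (hm.mul hm))
      rw [e]
      refine lintegral_mono_ae ?_
      filter_upwards [hψF] with x hx
      rw [← mul_assoc, hx]
    · intro v x
      have : orb L₀ f (c • (v : L) • x) = orb L₀ f (c • x) := by
        have hc : c • (v : L) • x = ((MulAut.conjNormal (H := L₀) c v : L₀) : L) • c • x := by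
          simp [smul_smul, MulAut.conjNormal_apply]
        rw [hc, orb_smul]
      simp only [this]
    · have hfinc : ∀ᵐ x ∂μ, orb L₀ f (c • x) ≠ ∞ :=
        (measurePreserving_smul c μ).quasiMeasurePreserving.ae hfin
      filter_upwards [hfinc] with x hx hne
      have h0 : orb L₀ f (c • x) ≠ 0 := by
        intro h; simp [h] at hne
      rw [orb_comp, horbψ (c • x) h0 hx]
  have hmc : Measurable (fun x => orb L₀ f (c • x)) := hm.comp (measurable_const_smul c)
  have hm1 : Measurable (fun x => f x * orb L₀ f (c • x)) := hf.mul hmc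
  have hm2 : Measurable (fun x => ψ x * (orb L₀ f x * orb L₀ f x)) := hψ.mul (hm.mul hm)
  have two : 2 * ∫⁻ x, f x * orb L₀ f (c • x) ∂μ ≤ 2 * ∫⁻ x, f x * orb L₀ f x ∂μ := by
    calc 2 * ∫⁻ x, f x * orb L₀ f (c • x) ∂μ
        = ∫⁻ x, 2 * (f x * orb L₀ f (c • x)) ∂μ := by
          rw [lintegral_const_mul _ hm1]
      _ ≤ ∫⁻ x, ψ x * (orb L₀ f x * orb L₀ f x)
            + ψ x * (orb L₀ f (c • x) * orb L₀ f (c • x)) ∂μ := by
          refine lintegral_mono_ae ?_
          filter_upwards [hψF] with x hx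
          rw [← hx, ← mul_add]
          calc 2 * (ψ x * orb L₀ f x * orb L₀ f (c • x))
              = ψ x * (2 * (orb L₀ f x * orb L₀ f (c • x))) := by ring
            _ ≤ _ := by gcongr; exact two_mul_le _ _
      _ = ∫⁻ x, ψ x * (orb L₀ f x * orb L₀ f x) ∂μ
            + ∫⁻ x, ψ x * (orb L₀ f (c • x) * orb L₀ f (c • x)) ∂μ := by
          rw [lintegral_add_left hm2]
      _ ≤ ∫⁻ x, f x * orb L₀ f x ∂μ + ∫⁻ x, f x * orb L₀ f x ∂μ := by
          refine add_le_add ?_ key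
          refine lintegral_mono_ae ?_
          filter_upwards [hψF] with x hx
          rw [← mul_assoc, hx]
      _ = _ := by rw [two_mul]
  exact (ENNReal.mul_le_mul_iff_right (by simp) (by simp)).1 two

omit [Countable L] in
/-- `L = ⊔ q.out * L₀` as an equivalence. -/
theorem out_bij (L₀ : Subgroup L) :
    Function.Bijective (fun p : (L ⧸ L₀) × L₀ => (p.1.out : L) * (p.2 : L)) := by
  constructor
  · rintro ⟨q, v⟩ ⟨q', v'⟩ h
    simp only at h
    have hq : q = q' := by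
      have e1 : ((q.out * (v : L) : L) : L ⧸ L₀) = q := by
        rw [QuotientGroup.mk_mul_of_mem _ v.2, QuotientGroup.out_eq']
      have e2 : ((q'.out * (v' : L) : L) : L ⧸ L₀) = q' := by
        rw [QuotientGroup.mk_mul_of_mem _ v'.2, QuotientGroup.out_eq']
      rw [← e1, ← e2, h]
    subst hq
    simpa using h
  · intro u
    have hu : ((u : L ⧸ L₀).out)⁻¹ * u ∈ L₀ := by
      rw [← QuotientGroup.eq, QuotientGroup.out_eq']
    exact ⟨((u : L ⧸ L₀), ⟨_, hu⟩), by simp⟩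

/-- **Positivity**: the normal subgroup `L₀` of finite index carries at least the fraction
`1 / [L : L₀]` of the autocorrelation of `f`. -/
theorem pos_abs (L₀ : Subgroup L) [L₀.Normal] [L₀.FiniteIndex] {f : X → ℝ≥0∞}
    (hf : Measurable f) :
    ∫⁻ x, f x * ∑' v : L, f (v • x) ∂μ
      ≤ L₀.index * ∫⁻ x, f x * ∑' v : L₀, f ((v : L) • x) ∂μ := by
  classical
  have : Fintype (L ⧸ L₀) := L₀.fintypeQuotientOfFiniteIndex
  have hsum : ∀ x, ∑' v : L, f (v • x) = ∑ q : L ⧸ L₀, orb L₀ f ((q.out : L)⁻¹ • x) := by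
    intro x
    have e1 : ∑' v : L, f (v • x) = ∑' v : L, f (v⁻¹ • x) :=
      ((Equiv.inv L).tsum_eq (fun v : L => f (v • x))).symm
    rw [e1, ← (Equiv.ofBijective _ (out_bij L₀)).tsum_eq
      (fun v : L => f (v⁻¹ • x)), ENNReal.tsum_prod', tsum_fintype]
    refine Finset.sum_congr rfl fun q _ => ?_
    unfold orb
    rw [← (Equiv.inv L₀).tsum_eq (fun v : L₀ => f ((v : L) • (q.out : L)⁻¹ • x))]
    refine tsum_congr fun v => ?_
    simp [smul_smul, mul_inv_rev]
  have hm := measurable_orb L₀ hf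
  calc ∫⁻ x, f x * ∑' v : L, f (v • x) ∂μ
      = ∫⁻ x, ∑ q : L ⧸ L₀, f x * orb L₀ f ((q.out : L)⁻¹ • x) ∂μ := by
        refine lintegral_congr fun x => ?_
        rw [hsum, Finset.mul_sum]
    _ = ∑ q : L ⧸ L₀, ∫⁻ x, f x * orb L₀ f ((q.out : L)⁻¹ • x) ∂μ := by
        rw [lintegral_finsetSum]
        intro q _
        exact hf.mul (hm.comp (measurable_const_smul _))
    _ ≤ ∑ q : L ⧸ L₀, ∫⁻ x, f x * orb L₀ f x ∂μ :=
        Finset.sum_le_sum fun q _ => coset_le L₀ hf _
    _ = _ := by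
        rw [Finset.sum_const, Finset.card_univ, nsmul_eq_mul]
        congr 1
        rw [Subgroup.index, Nat.card_eq_fintype_card]

end Vale.Agent.P011.H966
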