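import Vale.Agent.P011.H966.PosUnif

/-!
# Packing, finiteness of the zeta function, final positivity theorem
-/

namespace Vale.Agent.P011.H966

open MeasureTheory ENNReal Filter Topology Set
open scoped NNReal Pointwise

open Vale.Agent.P011.H699 (colon den mem_colon colon_le LRing Latt lintegral_le_of_weights
  tsum_weight_sub exists_weight index_mul_mod finite_mul_index)

variable {E : Type*} [Ring E] [TopologicalSpace E] [IsTopologicalRing E] [T2Space E]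
  [LocallyCompactSpace E] [MeasurableSpace E] [BorelSpace E] {Λ : Subring E}

/-- **Packing**: the number of elements of `Λ` in `s ^ j K₁` is `O(mod(s) ^ j)`. -/
theorem packing (μ : Measure E) [μ.IsAddHaarMeasure] [μ.Regular] (hΛ : LRing Λ) (s : Eˣ)
    {K₃ : Set E} (hK₃ : IsCompact K₃) (hs : ∀ j : ℕ, (((s ^ j)⁻¹ : Eˣ) : E) ∈ K₃)
    {K₁ : Set E} (hK₁ : IsCompact K₁) :
    ∃ C : ℝ≥0∞, C ≠ ∞ ∧ ∀ (j : ℕ) (F : Finset E), (∀ l ∈ F, l ∈ Λ ∧ ∃ b ∈ K₁,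
      l = ((s ^ j : Eˣ) : E) * b) → (F.card : ℝ≥0∞) ≤ C * (distribHaarChar E s : ℝ≥0∞) ^ j := by
  classical
  obtain ⟨K, hK, hK0⟩ := exists_compact_mem_nhds (0 : E)
  have hKpos : μ K ≠ 0 := (Measure.measure_pos_of_mem_nhds μ hK0).ne'
  have hKt : μ K ≠ ∞ := hK.measure_lt_top.ne
  have hfin := hΛ.disc _ (isCompact_sub hK hK)
  set N := hfin.toFinset.card with hN
  have hT : IsCompact (K₁ + K₃ * K) := hK₁.add (hK₃.mul hK)
  refine ⟨N * μ (K₁ + K₃ * K) / μ K, ?_, fun j F hF => ?_⟩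
  · exact (ENNReal.div_lt_top (ENNReal.mul_ne_top (ENNReal.natCast_ne_top _)
      hT.measure_lt_top.ne) hKpos).ne
  set T := (fun y => ((s ^ j : Eˣ) : E) * y) '' (K₁ + K₃ * K) with hTdef
  have hTc : IsCompact T := hT.image (continuous_const.mul continuous_id)
  have hpt : ∀ x : E, ∑ l ∈ F, K.indicator (1 : E → ℝ≥0∞) (x - l) ≤
      T.indicator (fun _ => (N : ℝ≥0∞)) x := by
    intro x
    have hsum : ∑ l ∈ F, K.indicator (1 : E → ℝ≥0∞) (x - l)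
        = ((F.filter fun l => x - l ∈ K).card : ℝ≥0∞) := by
      rw [Finset.card_filter, Nat.cast_sum]
      refine Finset.sum_congr rfl fun l _ => ?_
      by_cases h : x - l ∈ K
      · rw [Set.indicator_of_mem h, if_pos h, Nat.cast_one, Pi.one_apply]
      · rw [Set.indicator_of_notMem h, if_neg h, Nat.cast_zero]
    rw [hsum]
    by_cases hne : (F.filter fun l => x - l ∈ K).Nonempty
    · obtain ⟨l₀, hl₀⟩ := hne
      rw [Finset.mem_filter] at hl₀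
      obtain ⟨hl₀Λ, b, hb, hl₀b⟩ := hF l₀ hl₀.1
      have hxT : x ∈ T := by
        refine ⟨b + (((s ^ j)⁻¹ : Eˣ) : E) * (x - l₀), ?_, ?_⟩
        · exact Set.add_mem_add hb (Set.mul_mem_mul (hs j) hl₀.2)
        · simp only
          rw [mul_add, ← hl₀b, ← mul_assoc, Units.mul_inv, one_mul]
          abel
      rw [Set.indicator_of_mem hxT]
      have hle : (F.filter fun l => x - l ∈ K).card ≤ hfin.toFinset.card := by
        refine Finset.card_le_card_of_injOn (fun l => l - l₀) (fun l hl => ?_) ?_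
        · rw [Finset.mem_coe, Finset.mem_filter] at hl
          rw [Finset.mem_coe, Set.Finite.mem_toFinset]
          refine ⟨Λ.sub_mem (hF l hl.1).1 hl₀Λ, ?_⟩
          have : l - l₀ = (x - l₀) - (x - l) := by abel
          simp only
          rw [this]
          exact Set.sub_mem_sub hl₀.2 hl.2
        · intro a _ b _ hab
          exact sub_left_injective hab
      exact_mod_cast hle
    · rw [Finset.not_nonempty_iff_eq_empty] at hne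
      rw [hne, Finset.card_empty, Nat.cast_zero]
      exact zero_le
  have h1 : (F.card : ℝ≥0∞) * μ K ≤ N * (((distribHaarChar E s : ℝ≥0) ^ j : ℝ≥0)
      * μ (K₁ + K₃ * K)) := by
    calc (F.card : ℝ≥0∞) * μ K = ∑ l ∈ F, ∫⁻ x, K.indicator (1 : E → ℝ≥0∞) (x - l) ∂μ := by
          have : ∀ l ∈ F, ∫⁻ x, K.indicator (1 : E → ℝ≥0∞) (x - l) ∂μ = μ K := by
            intro l _
            rw [lintegral_sub_right_eq_self (μ := μ) (fun x => K.indicator (1 : E → ℝ≥0∞) x) l,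
              lintegral_indicator_one hK.measurableSet]
          rw [Finset.sum_congr rfl this, Finset.sum_const, nsmul_eq_mul]
      _ = ∫⁻ x, ∑ l ∈ F, K.indicator (1 : E → ℝ≥0∞) (x - l) ∂μ := by
          rw [lintegral_finsetSum]
          intro l _
          exact (measurable_one.indicator hK.measurableSet).comp (measurable_sub_const l)
      _ ≤ ∫⁻ x, T.indicator (fun _ => (N : ℝ≥0∞)) x ∂μ := lintegral_mono hpt
      _ = N * μ T := by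
          rw [lintegral_indicator hTc.measurableSet, lintegral_const, Measure.restrict_apply
            MeasurableSet.univ, Set.univ_inter]
      _ = _ := by rw [hTdef, measure_pow_mul]
  have h2 : (F.card : ℝ≥0∞) ≤ N * (((distribHaarChar E s : ℝ≥0) ^ j : ℝ≥0)
      * μ (K₁ + K₃ * K)) / μ K := by
    rwa [ENNReal.le_div_iff_mul_le (Or.inl hKpos) (Or.inl hKt)]
  refine h2.trans (le_of_eq ?_)
  rw [ENNReal.coe_pow, div_eq_mul_inv, div_eq_mul_inv]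
  ring

theorem geom_ne_top {σ : ℝ≥0∞} (h1 : 1 < σ) (ht : σ ≠ ∞) {x : ℝ} (hx : 1 < x) :
    ∑' j : ℕ, σ ^ j * ((σ ^ j) ^ x)⁻¹ ≠ ∞ := by
  have hlt : σ < σ ^ x := by
    have := ENNReal.rpow_lt_rpow_of_exponent_lt h1 ht hx
    rwa [ENNReal.rpow_one] at this
  have hx0 : (0 : ℝ) ≤ x := by linarith
  have hr : σ * (σ ^ x)⁻¹ < 1 := by
    rw [← div_eq_mul_inv]
    refine (ENNReal.div_lt_iff (Or.inl ?_) (Or.inl ?_)).2 (by rwa [one_mul])
    · exact (lt_of_le_of_lt zero_le hlt).ne'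
    · exact ENNReal.rpow_ne_top_of_nonneg hx0 ht
  have hterm : ∀ j : ℕ, σ ^ j * ((σ ^ j) ^ x)⁻¹ = (σ * (σ ^ x)⁻¹) ^ j := by
    intro j
    rw [mul_pow, ← ENNReal.inv_pow]
    congr 2
    rw [← ENNReal.rpow_natCast, ← ENNReal.rpow_mul, ← ENNReal.rpow_natCast, ← ENNReal.rpow_mul,
      mul_comm]
  simp_rw [hterm]
  rw [ENNReal.tsum_geometric]
  exact ENNReal.inv_ne_top.2 (tsub_pos_of_lt hr).ne'

/-- **Finiteness of the zeta function** -/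
theorem zeta_ne_top (hΛ : LRing Λ) (hunit : ∀ a ∈ Λ, a ≠ 0 → IsUnit a) (s : Eˣ)
    (hσ : 1 < distribHaarChar E s) {K₃ : Set E} (hK₃ : IsCompact K₃)
    (hs : ∀ j : ℕ, (((s ^ j)⁻¹ : Eˣ) : E) ∈ K₃) {w : E} (hw : w ∈ Λ)
    (hwc : ∀ e : E, w * e = e * w) (hwd : ∀ i j : ℕ, i < j → IsUnit (w ^ j - w ^ i))
    {x : ℝ} (hx : 1 < x) : zeta Λ Λ.toAddSubgroup x ≠ ∞ := by
  classical
  set μ : Measure E := Measure.addHaar with hμ
  obtain ⟨K, hK, hK0⟩ := exists_compact_mem_nhds (0 : E)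
  have hKpos : μ K ≠ 0 := (Measure.measure_pos_of_mem_nhds μ hK0).ne'
  obtain ⟨C₁, N, hM⟩ := mink_unif μ hΛ hunit s hσ hK hKpos
  obtain ⟨z, hz, hzc, hann⟩ := exists_ann hw hwc hwd N
  obtain ⟨C₄, hC₄, hpack⟩ := packing μ hΛ s hK₃ hs (isCompact_sub hK hK)
  set σ : ℝ≥0∞ := (distribHaarChar E s : ℝ≥0∞) with hσdef
  have hσ1 : 1 < σ := by
    rw [hσdef]
    exact_mod_cast hσ
  have hσt : σ ≠ ∞ := ENNReal.coe_ne_top
  have hx0 : (0 : ℝ) < x := by linarith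
  set F : ℕ → Set E := fun j => {l | l ∈ Λ ∧ ∃ b ∈ K - K, l = ((s ^ j : Eˣ) : E) * b} with hF
  have hFfin : ∀ j, (F j).Finite := by
    intro j
    refine (hΛ.disc _ ((isCompact_sub hK hK).image
      (f := fun y => ((s ^ j : Eˣ) : E) * y) (continuous_const.mul continuous_id))).subset ?_
    rintro l ⟨hl, b, hb, rfl⟩
    exact ⟨hl, b, hb, rfl⟩
  have hFf : ∀ j, Fintype (F j) := fun j => (hFfin j).fintype
  have hFc : ∀ j, (Fintype.card (F j) : ℝ≥0∞) ≤ C₄ * σ ^ j := by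
    intro j
    have := hpack j (hFfin j).toFinset (fun l hl => by
      rw [Set.Finite.mem_toFinset] at hl
      exact hl)
    rwa [← Set.toFinset_card, ← Set.Finite.toFinset_eq_toFinset (hFfin j)]
  set B : Set (AddSubgroup E) := {M | tr z Λ.toAddSubgroup ≤ M ∧ M ≤ Λ.toAddSubgroup} with hB
  have hBfin : B.Finite := finite_between (relIndex_tr_ne_zero hΛ z hz)
  have hBf : Fintype B := hBfin.fintype
  have hM' : ∀ M : Sub Λ Λ.toAddSubgroup, ∃ (j : ℕ) (m : Eˣ),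
      (distribHaarChar E s) ^ j ≤ C₁ * ((M.1.relIndex Λ.toAddSubgroup : ℕ) : ℝ≥0)
        ∧ (m : E) ∈ M.1 ∧ tr m Λ.toAddSubgroup ≤ M.1 ∧ (tr m Λ.toAddSubgroup).relIndex M.1 ≠ 0 ∧
        (tr m Λ.toAddSubgroup).relIndex M.1 ≤ N ∧
        ∃ b ∈ K - K, (m : E) = ((s ^ j : Eˣ) : E) * b := fun M =>
    hM M.1 M.2.2.2 M.2.1 M.2.2.1
  choose j m h1 h2 h3 h4 h5 h6 using hM'
  have h7 : ∀ M : Sub Λ Λ.toAddSubgroup, tr z M.1 ≤ tr (m M) Λ.toAddSubgroup := fun M =>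
    hann M.1 _ M.2.2.2 ((isRM_self Λ).tr _) (h4 M) (h5 M)
  have h8 : ∀ M : Sub Λ Λ.toAddSubgroup, tr z Λ.toAddSubgroup ≤ tr (m M)⁻¹ (tr z M.1) := by
    intro M
    have h9 : tr (m M)⁻¹ (tr z (tr (m M) Λ.toAddSubgroup)) ≤ tr (m M)⁻¹ (tr z M.1) :=
      tr_mono (tr_mono (h3 M))
    have h10 : tr (m M)⁻¹ (tr z (tr (m M) Λ.toAddSubgroup)) = tr z Λ.toAddSubgroup := by
      rw [← tr_mul, ← tr_mul]
      congr 1
      have : z * m M = m M * z := Units.ext (by rw [Units.val_mul, Units.val_mul, hzc])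
      rw [mul_assoc, this, inv_mul_cancel_left]
    rwa [h10] at h9
  have h11 : ∀ M : Sub Λ Λ.toAddSubgroup, tr (m M)⁻¹ (tr z M.1) ≤ Λ.toAddSubgroup := by
    intro M
    have := tr_mono (u := (m M)⁻¹) (h7 M)
    rwa [tr_inv_tr] at this
  let f : Sub Λ Λ.toAddSubgroup → (Σ j : ℕ, (F j × B)) := fun M =>
    ⟨j M, ⟨(m M : E), M.2.1 (h2 M), h6 M⟩, ⟨tr (m M)⁻¹ (tr z M.1), h8 M, h11 M⟩⟩
  have hf : Function.Injective f := by
    intro M M' hMM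
    let g : (Σ j : ℕ, (F j × B)) → E × AddSubgroup E := fun p => (p.2.1.1, p.2.2.1)
    have hg : g (f M) = g (f M') := by rw [hMM]
    have hg1 : (m M : E) = (m M' : E) := congrArg Prod.fst hg
    have hg2 : tr (m M)⁻¹ (tr z M.1) = tr (m M')⁻¹ (tr z M'.1) := congrArg Prod.snd hg
    rw [Units.ext hg1] at hg2
    exact Subtype.ext (tr_injective _ (tr_injective _ hg2))
  have hbd : ∀ M : Sub Λ Λ.toAddSubgroup, ((M.1.relIndex Λ.toAddSubgroup : ℕ) : ℝ≥0∞) ^ (-x)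
      ≤ (C₁ : ℝ≥0∞) ^ x * ((σ ^ (j M)) ^ x)⁻¹ := by
    intro M
    set a : ℝ≥0∞ := ((M.1.relIndex Λ.toAddSubgroup : ℕ) : ℝ≥0∞) with ha
    have ha0 : a ^ x ≠ 0 := by
      rw [Ne, ENNReal.rpow_eq_zero_iff_of_pos hx0, ha, Nat.cast_eq_zero]
      exact M.2.2.1
    have hat : a ^ x ≠ ∞ := ENNReal.rpow_ne_top_of_nonneg hx0.le (ENNReal.natCast_ne_top _)
    have hb0 : (σ ^ (j M)) ^ x ≠ 0 := by
      rw [Ne, ENNReal.rpow_eq_zero_iff_of_pos hx0]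
      exact pow_ne_zero _ (lt_trans zero_lt_one hσ1).ne'
    have hbt : (σ ^ (j M)) ^ x ≠ ∞ :=
      ENNReal.rpow_ne_top_of_nonneg hx0.le (ENNReal.pow_ne_top hσt)
    have hle : (σ ^ (j M)) ^ x ≤ (C₁ : ℝ≥0∞) ^ x * a ^ x := by
      rw [← ENNReal.mul_rpow_of_nonneg _ _ hx0.le]
      refine ENNReal.rpow_le_rpow ?_ hx0.le
      have := h1 M
      rw [hσdef, ha, ← ENNReal.coe_pow]
      exact_mod_cast this
    rw [ENNReal.rpow_neg]
    calc (a ^ x)⁻¹ = (a ^ x)⁻¹ * ((σ ^ (j M)) ^ x * ((σ ^ (j M)) ^ x)⁻¹) := by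
          rw [ENNReal.mul_inv_cancel hb0 hbt, mul_one]
      _ ≤ (a ^ x)⁻¹ * (((C₁ : ℝ≥0∞) ^ x * a ^ x) * ((σ ^ (j M)) ^ x)⁻¹) := by gcongr
      _ = ((a ^ x)⁻¹ * a ^ x) * ((C₁ : ℝ≥0∞) ^ x * ((σ ^ (j M)) ^ x)⁻¹) := by ring
      _ = _ := by rw [ENNReal.inv_mul_cancel ha0 hat, one_mul]
  have hsum : zeta Λ Λ.toAddSubgroup x ≤
      ∑' p : (Σ j : ℕ, (F j × B)), (C₁ : ℝ≥0∞) ^ x * ((σ ^ p.1) ^ x)⁻¹ := by
    refine le_trans (ENNReal.tsum_le_tsum hbd) ?_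
    exact ENNReal.tsum_comp_le_tsum_of_injective hf
      (fun p : (Σ j : ℕ, (F j × B)) => (C₁ : ℝ≥0∞) ^ x * ((σ ^ p.1) ^ x)⁻¹)
  have hsum2 : ∑' p : (Σ j : ℕ, (F j × B)), (C₁ : ℝ≥0∞) ^ x * ((σ ^ p.1) ^ x)⁻¹ ≤
      ((Fintype.card B : ℝ≥0∞) * C₄ * (C₁ : ℝ≥0∞) ^ x) *
        ∑' j : ℕ, σ ^ j * ((σ ^ j) ^ x)⁻¹ := by
    rw [ENNReal.tsum_sigma', ← ENNReal.tsum_mul_left]
    refine ENNReal.tsum_le_tsum fun i => ?_
    change ∑' _ : F i × B, (C₁ : ℝ≥0∞) ^ x * ((σ ^ i) ^ x)⁻¹ ≤ _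
    rw [tsum_fintype, Finset.sum_const, Finset.card_univ, Fintype.card_prod, nsmul_eq_mul,
      Nat.cast_mul]
    calc (Fintype.card (F i) : ℝ≥0∞) * (Fintype.card B : ℝ≥0∞)
          * ((C₁ : ℝ≥0∞) ^ x * ((σ ^ i) ^ x)⁻¹)
        ≤ (C₄ * σ ^ i) * (Fintype.card B : ℝ≥0∞) * ((C₁ : ℝ≥0∞) ^ x * ((σ ^ i) ^ x)⁻¹) := by
          gcongr
          exact hFc i
      _ = _ := by ring
  refine ((hsum.trans hsum2).trans_lt ?_).ne
  refine ENNReal.mul_lt_top (ENNReal.mul_lt_top (ENNReal.mul_lt_top ?_ hC₄.lt_top) ?_) ?_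
  · exact ENNReal.natCast_lt_top _
  · exact (ENNReal.rpow_ne_top_of_nonneg hx0.le ENNReal.coe_ne_top).lt_top
  · exact (geom_ne_top hσ1 hσt hx).lt_top

theorem rpow_le_sq {c N : ℕ} (h0 : c ≠ 0) (h : c ≤ N) {x : ℝ} (hx : 1 < x) (hx2 : x ≤ 2) :
    (c : ℝ≥0∞) ^ x ≤ ((N ^ 2 : ℕ) : ℝ≥0∞) := by
  have h1 : (1 : ℝ≥0∞) ≤ (N : ℝ≥0∞) := by
    exact_mod_cast (Nat.one_le_iff_ne_zero.2 h0).trans h
  calc (c : ℝ≥0∞) ^ x ≤ (N : ℝ≥0∞) ^ x :=
        ENNReal.rpow_le_rpow (by exact_mod_cast h) (by linarith)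
    _ ≤ (N : ℝ≥0∞) ^ (2 : ℝ) := ENNReal.rpow_le_rpow_of_exponent_le h1 hx2
    _ = _ := by
        rw [Nat.cast_pow, ← ENNReal.rpow_natCast]
        norm_num

/-- **Positivity (POS)**: the mass of a normal subgroup `L₀` of finite index of the arithmetic
group `L`, weighted by `den ^ (-x)` and by the autocorrelation of any `κ`, is at least
`(C * index)⁻¹` times the mass of `L`, uniformly in `x ∈ (1, 2]`, `L₀` and `κ`. -/
theorem pos_main {L : Type*} [Group L] [Countable L] (hΛ : LRing Λ)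
    (hunit : ∀ a ∈ Λ, a ≠ 0 → IsUnit a) (s : Eˣ)
    (hσ : 1 < distribHaarChar E s) {K₃ : Set E} (hK₃ : IsCompact K₃)
    (hs : ∀ j : ℕ, (((s ^ j)⁻¹ : Eˣ) : E) ∈ K₃) {w : E} (hw : w ∈ Λ)
    (hwc : ∀ e : E, w * e = e * w) (hwd : ∀ i j : ℕ, i < j → IsUnit (w ^ j - w ^ i))
    (ι : L →* Eˣ) (hι : ∀ v, distribHaarChar E (ι v) = 1)
    (hden : ∀ v : L, den Λ ((ι v : Eˣ) : E) ≠ 0) :
    ∃ C : ℕ, ∀ x : ℝ, 1 < x → x ≤ 2 →
      ∀ {G : Type*} [MeasurableSpace G] [MulAction L G] [MeasurableConstSMul L G]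
      (μ : Measure G) [SFinite μ] [SMulInvariantMeasure L G μ]
      (L₀ : Subgroup L) [L₀.Normal] [L₀.FiniteIndex] {κ : G → ℝ≥0∞}, Measurable κ →
      ∑' v : L, ((den Λ ((ι v : Eˣ) : E) : ℕ) : ℝ≥0∞) ^ (-x) * autoc μ κ v
        ≤ C * L₀.index *
          ∑' v : L₀, ((den Λ ((ι (v : L) : Eˣ) : E) : ℕ) : ℝ≥0∞) ^ (-x)
            * autoc μ κ (v : L) := by
  obtain ⟨K, hK, hK0⟩ := exists_compact_mem_nhds (0 : E)
  have hKpos : (Measure.addHaar : Measure E) K ≠ 0 :=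
    (Measure.measure_pos_of_mem_nhds _ hK0).ne'
  obtain ⟨C₁, N, hM⟩ := mink_unif (Measure.addHaar : Measure E) hΛ hunit s hσ hK hKpos
  obtain ⟨z, hz, hzc, hann⟩ := exists_ann hw hwc hwd N
  have hz0 := relIndex_tr_ne_zero hΛ z hz
  set cz := (tr z Λ.toAddSubgroup).relIndex Λ.toAddSubgroup with hcz
  have hidx := idx_of_mod hΛ hunit s hσ ι hι
  have hcount := countable_sub hΛ hunit s hσ
  have hMv : ∀ v : L, ∃ m : Eˣ,
      tr m Λ.toAddSubgroup ≤ colon Λ ((ι v : Eˣ) : E) ∧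
      (tr m Λ.toAddSubgroup).relIndex (colon Λ ((ι v : Eˣ) : E)) ≠ 0 ∧
      (tr m Λ.toAddSubgroup).relIndex (colon Λ ((ι v : Eˣ) : E)) ≤ N := by
    intro v
    obtain ⟨-, m, -, -, h3, h4, h5, -⟩ := hM _ (isRM_colon Λ ((ι v : Eˣ) : E))
      (colon_le Λ _) (hden v)
    exact ⟨m, h3, h4, h5⟩
  refine ⟨N ^ 2 * cz ^ 2, fun x hx hx2 G _ _ _ μ _ _ L₀ _ _ κ hκ => ?_⟩
  have hζ := zeta_ne_top hΛ hunit s hσ hK₃ hs hw hwc hwd hx
  have := pos_den (A := ((N ^ 2 : ℕ) : ℝ≥0∞)) (B := ((cz ^ 2 : ℕ) : ℝ≥0∞)) hidx hden hζ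
    (fun v => ?_) (fun v => ?_) μ L₀ hκ
  · rwa [← Nat.cast_mul] at this
  · obtain ⟨m, h3, h4, h5⟩ := hMv v
    refine (zeta_self_le m h3 h4 x).trans ?_
    gcongr
    exact rpow_le_sq h4 h5 hx hx2
  · obtain ⟨m, h3, h4, h5⟩ := hMv v
    refine (zeta_le_self (colon_le Λ _) (hden v) m z hz hzc h3 h4
      (hann _ _ (isRM_colon Λ _) ((isRM_self Λ).tr _) h4 h5) hz0 (by linarith)).trans ?_
    gcongr
    exact rpow_le_sq hz0 le_rfl hx hx2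

end Vale.Agent.P011.H966
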