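import Vale.Agent.P011.H966.PosProd
import Vale.Agent.P011.H699.Den

/-!
# Right submodules of an order, their zeta functions, and the weights `W(v)`

`Λ` a subring of `E`, `zeta Λ I x = ∑ [I : M]^(-x)` over the right `Λ`-submodules `M ≤ I` of
finite index.  For `ι : L →* Eˣ` preserving indices the weight
`W(v) = ∑_{M, vM ≤ Λ} [Λ : M]^(-x)` equals `den(v)^(-x) * zeta Λ (colon Λ v) x`.
-/

namespace Vale.Agent.P011.H966

open MeasureTheory ENNReal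
open scoped Pointwise NNReal

open Vale.Agent.P011.H699 (colon den mem_colon colon_le)

section Alg

variable {E : Type*} [Ring E]

/-- `u M` -/
def tr (u : Eˣ) (M : AddSubgroup E) : AddSubgroup E := M.map (AddMonoidHom.mulLeft (u : E))

theorem mem_tr {u : Eˣ} {M : AddSubgroup E} {y : E} : y ∈ tr u M ↔ ∃ x ∈ M, (u : E) * x = y :=
  Iff.rfl

theorem tr_mul (u v : Eˣ) (M : AddSubgroup E) : tr (u * v) M = tr u (tr v M) := by
  ext y
  simp only [mem_tr]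
  constructor
  · rintro ⟨x, hx, rfl⟩
    exact ⟨v * x, ⟨x, hx, rfl⟩, by rw [Units.val_mul, mul_assoc]⟩
  · rintro ⟨_, ⟨x, hx, rfl⟩, rfl⟩
    exact ⟨x, hx, by rw [Units.val_mul, mul_assoc]⟩

theorem tr_one (M : AddSubgroup E) : tr (1 : Eˣ) M = M := by
  ext y
  simp [mem_tr]

theorem tr_inv_tr (u : Eˣ) (M : AddSubgroup E) : tr u⁻¹ (tr u M) = M := by
  rw [← tr_mul, inv_mul_cancel, tr_one]

theorem tr_tr_inv (u : Eˣ) (M : AddSubgroup E) : tr u (tr u⁻¹ M) = M := by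
  rw [← tr_mul, mul_inv_cancel, tr_one]

theorem tr_injective (u : Eˣ) : Function.Injective (tr u : AddSubgroup E → AddSubgroup E) :=
  fun M N h => by rw [← tr_inv_tr u M, h, tr_inv_tr]

theorem tr_mono {u : Eˣ} {M N : AddSubgroup E} (h : M ≤ N) : tr u M ≤ tr u N :=
  AddSubgroup.map_mono h

theorem relIndex_tr_tr (u : Eˣ) (M N : AddSubgroup E) :
    (tr u M).relIndex (tr u N) = M.relIndex N :=
  AddSubgroup.relIndex_map_map_of_injective _ _ (f := AddMonoidHom.mulLeft (u : E))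
    (fun _ _ h => u.isUnit.mul_left_cancel h)

/-- right `Λ`-submodules -/
def IsRM (Λ : Subring E) (M : AddSubgroup E) : Prop := ∀ x ∈ M, ∀ r ∈ Λ, x * r ∈ M

/-- right `Λ`-submodules of finite index in `I` -/
def Sub (Λ : Subring E) (I : AddSubgroup E) : Type _ :=
  {M : AddSubgroup E // M ≤ I ∧ M.relIndex I ≠ 0 ∧ IsRM Λ M}

/-- the zeta function of `I` -/
noncomputable def zeta (Λ : Subring E) (I : AddSubgroup E) (x : ℝ) : ℝ≥0∞ :=
  ∑' M : Sub Λ I, ((M.1.relIndex I : ℕ) : ℝ≥0∞) ^ (-x)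

theorem IsRM.tr {Λ : Subring E} {M : AddSubgroup E} (h : IsRM Λ M) (u : Eˣ) :
    IsRM Λ (tr u M) := by
  intro y hy r hr
  rw [mem_tr] at hy ⊢
  obtain ⟨x, hx, rfl⟩ := hy
  exact ⟨x * r, h x hx r hr, by rw [mul_assoc]⟩

theorem isRM_self (Λ : Subring E) : IsRM Λ Λ.toAddSubgroup := fun _ hx _ hr => Λ.mul_mem hx hr

theorem isRM_colon (Λ : Subring E) (s : E) : IsRM Λ (colon Λ s) := fun x hx r hr => by
  rw [mem_colon] at hx ⊢
  exact ⟨Λ.mul_mem hx.1 hr, by rw [← mul_assoc]; exact Λ.mul_mem hx.2 hr⟩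

theorem rpow_aux {a c : ℕ} (ha : a ≠ 0) (hc : c ≠ 0) (x : ℝ) :
    ((a : ℕ) : ℝ≥0∞) ^ (-x) = ((c : ℕ) : ℝ≥0∞) ^ x * (((a * c : ℕ) : ℕ) : ℝ≥0∞) ^ (-x) := by
  have ha' : ((a : ℕ) : ℝ≥0∞) ≠ 0 := by exact_mod_cast ha
  have hc' : ((c : ℕ) : ℝ≥0∞) ≠ 0 := by exact_mod_cast hc
  rw [Nat.cast_mul, ENNReal.mul_rpow_of_ne_zero ha' hc', mul_comm (_ ^ (-x)) (_ ^ (-x)),
    ← mul_assoc, ← ENNReal.rpow_add _ _ hc' (ENNReal.natCast_ne_top c), add_neg_cancel,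
    ENNReal.rpow_zero, one_mul]

/-- Lower bound for `zeta Λ I`. -/
theorem zeta_self_le {Λ : Subring E} {I : AddSubgroup E} (m : Eˣ)
    (hm : tr m Λ.toAddSubgroup ≤ I) (hc : (tr m Λ.toAddSubgroup).relIndex I ≠ 0) (x : ℝ) :
    zeta Λ Λ.toAddSubgroup x
      ≤ (((tr m Λ.toAddSubgroup).relIndex I : ℕ) : ℝ≥0∞) ^ x * zeta Λ I x := by
  set c := (tr m Λ.toAddSubgroup).relIndex I with hcdef
  have hle : ∀ M : Sub Λ Λ.toAddSubgroup, tr m M.1 ≤ tr m Λ.toAddSubgroup := fun M =>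
    tr_mono M.2.1
  have hidx : ∀ M : Sub Λ Λ.toAddSubgroup, (tr m M.1).relIndex I
      = M.1.relIndex Λ.toAddSubgroup * c := by
    intro M
    rw [← AddSubgroup.relIndex_mul_relIndex _ _ _ (hle M) hm, relIndex_tr_tr]
  let f : Sub Λ Λ.toAddSubgroup → Sub Λ I := fun M =>
    ⟨tr m M.1, (hle M).trans hm, by rw [hidx]; exact mul_ne_zero M.2.2.1 hc, M.2.2.2.tr m⟩
  have hf : Function.Injective f := by
    intro M N h
    have h1 : tr m M.1 = tr m N.1 := congrArg Subtype.val h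
    exact Subtype.ext (tr_injective m h1)
  unfold zeta
  rw [← ENNReal.tsum_mul_left]
  refine le_trans (le_of_eq (tsum_congr fun M => ?_))
    (ENNReal.tsum_comp_le_tsum_of_injective hf
      (fun N : Sub Λ I => (c : ℝ≥0∞) ^ x * ((N.1.relIndex I : ℕ) : ℝ≥0∞) ^ (-x)))
  change _ = (c : ℝ≥0∞) ^ x * (((tr m M.1).relIndex I : ℕ) : ℝ≥0∞) ^ (-x)
  rw [hidx, rpow_aux M.2.2.1 hc x]

/-- Upper bound for `zeta Λ I`. -/
theorem zeta_le_self {Λ : Subring E} {I : AddSubgroup E} (hI : I ≤ Λ.toAddSubgroup)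
    (hI0 : I.relIndex Λ.toAddSubgroup ≠ 0) (m z : Eˣ) (hz : (z : E) ∈ Λ)
    (hzc : ∀ e : E, (z : E) * e = e * z)
    (hm : tr m Λ.toAddSubgroup ≤ I) (hc : (tr m Λ.toAddSubgroup).relIndex I ≠ 0)
    (hzI : tr z I ≤ tr m Λ.toAddSubgroup)
    (hz0 : (tr z Λ.toAddSubgroup).relIndex Λ.toAddSubgroup ≠ 0) {x : ℝ} (hx : 0 ≤ x) :
    zeta Λ I x ≤ (((tr z Λ.toAddSubgroup).relIndex Λ.toAddSubgroup : ℕ) : ℝ≥0∞) ^ x
      * zeta Λ Λ.toAddSubgroup x := by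
  set c := (tr m Λ.toAddSubgroup).relIndex I with hcdef
  set cz := (tr z Λ.toAddSubgroup).relIndex Λ.toAddSubgroup with hczdef
  have hzM : ∀ M : AddSubgroup E, IsRM Λ M → tr z M ≤ M := by
    intro M hM y hy
    rw [mem_tr] at hy
    obtain ⟨w, hw, rfl⟩ := hy
    rw [hzc]
    exact hM w hw _ hz
  have hlez : ∀ M : Sub Λ I, tr z M.1 ≤ tr m Λ.toAddSubgroup := fun M =>
    (tr_mono M.2.1).trans hzI
  -- the index of `z M` in `M`
  have hMz : ∀ M : Sub Λ I, (tr z M.1).relIndex M.1 = cz := by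
    intro M
    have hMΛ : M.1.relIndex Λ.toAddSubgroup ≠ 0 :=
      AddSubgroup.relIndex_ne_zero_trans M.2.2.1 hI0
    have h1 : (tr z M.1).relIndex M.1 * M.1.relIndex Λ.toAddSubgroup
        = (tr z M.1).relIndex Λ.toAddSubgroup :=
      AddSubgroup.relIndex_mul_relIndex _ _ _ (hzM _ M.2.2.2) (M.2.1.trans hI)
    have h2 : (tr z M.1).relIndex (tr z Λ.toAddSubgroup) * cz
        = (tr z M.1).relIndex Λ.toAddSubgroup :=
      AddSubgroup.relIndex_mul_relIndex _ _ _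
        (tr_mono (M.2.1.trans hI))
        (hzM _ (isRM_self Λ))
    rw [relIndex_tr_tr, ← h1, mul_comm] at h2
    exact (Nat.eq_of_mul_eq_mul_right (Nat.pos_of_ne_zero hMΛ) h2).symm
  have hidx : ∀ M : Sub Λ I, (tr z M.1).relIndex (tr m Λ.toAddSubgroup) * c
      = cz * M.1.relIndex I := by
    intro M
    rw [hcdef, AddSubgroup.relIndex_mul_relIndex _ _ _ (hlez M) hm, ← hMz M,
      AddSubgroup.relIndex_mul_relIndex _ _ _ (hzM _ M.2.2.2) M.2.1]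
  have hidx2 : ∀ M : Sub Λ I, (tr m⁻¹ (tr z M.1)).relIndex Λ.toAddSubgroup
      = (tr z M.1).relIndex (tr m Λ.toAddSubgroup) := by
    intro M
    have := relIndex_tr_tr m (tr m⁻¹ (tr z M.1)) Λ.toAddSubgroup
    rwa [tr_tr_inv, eq_comm] at this
  have hne : ∀ M : Sub Λ I, (tr m⁻¹ (tr z M.1)).relIndex Λ.toAddSubgroup ≠ 0 := by
    intro M h
    have := hidx M
    rw [← hidx2, h, zero_mul, eq_comm, mul_eq_zero] at this
    exact this.elim hz0 M.2.2.1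
  let f : Sub Λ I → Sub Λ Λ.toAddSubgroup := fun M =>
    ⟨tr m⁻¹ (tr z M.1), by
      have := tr_mono (u := m⁻¹) (hlez M)
      rwa [tr_inv_tr] at this, hne M, (M.2.2.2.tr z).tr m⁻¹⟩
  have hf : Function.Injective f := by
    intro M N h
    have h1 : tr m⁻¹ (tr z M.1) = tr m⁻¹ (tr z N.1) := congrArg Subtype.val h
    exact Subtype.ext (tr_injective z (tr_injective m⁻¹ h1))
  unfold zeta
  rw [← ENNReal.tsum_mul_left]
  refine le_trans (ENNReal.tsum_le_tsum fun M => ?_)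
    (ENNReal.tsum_comp_le_tsum_of_injective hf
      (fun N : Sub Λ Λ.toAddSubgroup =>
        (cz : ℝ≥0∞) ^ x * ((N.1.relIndex Λ.toAddSubgroup : ℕ) : ℝ≥0∞) ^ (-x)))
  change _ ≤ (cz : ℝ≥0∞) ^ x *
    (((tr m⁻¹ (tr z M.1)).relIndex Λ.toAddSubgroup : ℕ) : ℝ≥0∞) ^ (-x)
  rw [rpow_aux M.2.2.1 hz0 x]
  gcongr (cz : ℝ≥0∞) ^ x * ?_
  rw [ENNReal.rpow_neg, ENNReal.rpow_neg, ENNReal.inv_le_inv]
  gcongr
  have h1 := hidx M
  rw [← hidx2, mul_comm cz] at h1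
  rw [← h1]
  exact Nat.le_mul_of_pos_right _ (Nat.pos_of_ne_zero hc)

end Alg

end Vale.Agent.P011.H966
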