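import Vale.Agent.P011.H966.PosWt

/-!
# Minkowski elements of right submodules, uniform comparison of the zeta functions
-/

namespace Vale.Agent.P011.H966

open MeasureTheory ENNReal Filter Topology Set
open scoped NNReal Pointwise

open Vale.Agent.P011.H699 (colon den mem_colon colon_le LRing Latt lintegral_le_of_weights
  tsum_weight_sub exists_weight index_mul_mod finite_mul_index)

section Between

/-- there are finitely many subgroups between `N` and `P` if `[P : N] < ∞` -/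
theorem finite_between {E : Type*} [AddCommGroup E] {N P : AddSubgroup E}
    (h : N.relIndex P ≠ 0) : {M : AddSubgroup E | N ≤ M ∧ M ≤ P}.Finite := by
  set N' : AddSubgroup P := N.addSubgroupOf P with hN'
  have hfi : N'.FiniteIndex := ⟨h⟩
  have hfin : Finite (P ⧸ N') := inferInstance
  have hfin2 : Finite (AddSubgroup (P ⧸ N')) := inferInstance
  refine Set.Finite.of_injOn (f := fun M : AddSubgroup E =>
    (M.addSubgroupOf P).map (QuotientAddGroup.mk' N')) (t := Set.univ) (fun _ _ => mem_univ _) ?_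
    Set.finite_univ
  have key : ∀ M : AddSubgroup E, N ≤ M → M ≤ P → ((((M.addSubgroupOf P).map
      (QuotientAddGroup.mk' N')).comap (QuotientAddGroup.mk' N')).map P.subtype) = M := by
    intro M h1 h2
    rw [AddSubgroup.comap_map_eq, QuotientAddGroup.ker_mk', sup_eq_left.2,
      AddSubgroup.addSubgroupOf_map_subtype, inf_eq_left.2 h2]
    intro x hx
    exact h1 hx
  intro M hM M' hM' he
  rw [← key M hM.1 hM.2, ← key M' hM'.1 hM'.2]
  simp only at he
  rw [he]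

end Between

variable {E : Type*} [Ring E] [TopologicalSpace E] [IsTopologicalRing E] [T2Space E]
  [LocallyCompactSpace E] [MeasurableSpace E] [BorelSpace E] {Λ : Subring E}

omit [T2Space E] in
theorem relIndex_tr_ne_zero (hΛ : LRing Λ) (m : Eˣ) (hm : (m : E) ∈ Λ) :
    (tr m Λ.toAddSubgroup).relIndex Λ.toAddSubgroup ≠ 0 :=
  finite_mul_index hΛ hm m.isUnit fun x hx => ⟨x, hx, rfl⟩

theorem relIndex_tr_self (hΛ : LRing Λ) (m : Eˣ) (hm : (m : E) ∈ Λ) :
    (((tr m Λ.toAddSubgroup).relIndex Λ.toAddSubgroup : ℕ) : ℝ≥0) = distribHaarChar E m := by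
  have h := (index_mul_mod (I := Λ.toAddSubgroup) (J := tr m Λ.toAddSubgroup) hΛ.latt le_rfl
    (fun y hy => by
      obtain ⟨x, hx, rfl⟩ := hy
      exact Λ.mul_mem hm hx)
    (by rw [AddSubgroup.relIndex_self]; exact one_ne_zero) m
    (fun x => ⟨fun hx => ⟨x, hx, rfl⟩, fun hx => by
      obtain ⟨y, hy, he⟩ := hx
      have : y = x := m.isUnit.mul_left_cancel he
      rwa [← this]⟩)
    (fun y hy => by
      obtain ⟨x, hx, rfl⟩ := hy
      exact ⟨x, hx, rfl⟩)).2 (relIndex_tr_ne_zero hΛ m hm)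
  rwa [AddSubgroup.relIndex_self, Nat.cast_one, one_mul] at h

/-- index of a translate -/
theorem relIndex_tr_eq (hΛ : LRing Λ) (d : Eˣ) {M : AddSubgroup E} (h1 : M ≤ Λ.toAddSubgroup)
    (h2 : M.relIndex Λ.toAddSubgroup ≠ 0) (h3 : tr d M ≤ Λ.toAddSubgroup)
    (h4 : (tr d M).relIndex Λ.toAddSubgroup ≠ 0) :
    (((tr d M).relIndex Λ.toAddSubgroup : ℕ) : ℝ≥0)
      = ((M.relIndex Λ.toAddSubgroup : ℕ) : ℝ≥0) * distribHaarChar E d :=
  (index_mul_mod (I := M) (J := tr d M) hΛ.latt h1 h3 h2 d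
    (fun x => ⟨fun hx => ⟨x, hx, rfl⟩, fun hx => by
      obtain ⟨y, hy, he⟩ := hx
      have : y = x := d.isUnit.mul_left_cancel he
      rwa [← this]⟩)
    (fun y hy => by
      obtain ⟨x, hx, rfl⟩ := hy
      exact ⟨x, hx, rfl⟩)).2 h4

/-- measure of `s^j K` -/
theorem measure_pow_mul {μ : Measure E} [μ.IsAddHaarMeasure] [μ.Regular] (s : Eˣ) (j : ℕ)
    (K : Set E) :
    μ ((fun y => ((s ^ j : Eˣ) : E) * y) '' K) = ((distribHaarChar E s : ℝ≥0) ^ j : ℝ≥0) * μ K := by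
  have h2 : (fun y => ((s ^ j : Eˣ) : E) * y) '' K = (s ^ j : Eˣ) • K := by
    rw [← Set.image_smul]
    rfl
  rw [h2, ← distribHaarChar_mul μ (s ^ j) K, map_pow]

/-- **Blichfeldt**: a sublattice of finite index has a nonzero element in `D - D` if
`μ D > [Λ : M] covol`. -/
theorem blich_sub {μ : Measure E} [μ.IsAddHaarMeasure] (hΛ : LRing Λ) :
    ∃ ν : ℝ≥0∞, ν ≠ 0 ∧ ν ≠ ∞ ∧ ∀ M : AddSubgroup E, M ≤ Λ.toAddSubgroup →
      M.relIndex Λ.toAddSubgroup ≠ 0 → ∀ D : Set E, MeasurableSet D →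
      ((M.relIndex Λ.toAddSubgroup : ℕ) : ℝ≥0∞) * ν < μ D →
      ∃ x ∈ D, ∃ y ∈ D, x ≠ y ∧ x - y ∈ M := by
  classical
  have hc := hΛ.countable
  have hc' : Countable Λ.toAddSubgroup := hc
  obtain ⟨ψ, hψm, hψ1, hψ0, hψt⟩ := exists_weight (μ := μ) hΛ.latt
  refine ⟨∫⁻ x, ψ x ∂μ, hψ0, hψt, fun M hM hfi D hD hlt => ?_⟩
  by_contra hcon
  push Not at hcon
  obtain ⟨ψM, hψMm, hψMi, hψMs⟩ := tsum_weight_sub (μ := μ) hfi hψm hM
  have hcM : Countable M := (AddSubgroup.inclusion_injective hM).countable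
  have hle := lintegral_le_of_weights (μ := μ) M (ψ := D.indicator 1) (ψ' := ψM)
    (measurable_one.indicator hD) hψMm (fun x => ?_) (fun x => by rw [hψMs, hψ1])
  · rw [lintegral_indicator_one hD, hψMi] at hle
    exact absurd hle (not_le.2 hlt)
  · by_cases hex : ∃ l : M, (l : E) + x ∈ D
    · obtain ⟨l₀, hl₀⟩ := hex
      rw [tsum_eq_single l₀ (fun l hl => ?_)]
      · rw [Set.indicator_of_mem hl₀]; rfl
      · refine Set.indicator_of_notMem (fun hlD => ?_) _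
        have hne : (l : E) + x ≠ l₀ + x := fun he => hl (Subtype.ext (add_right_cancel he))
        refine hcon _ hlD _ hl₀ hne ?_
        have : (l : E) + x - (l₀ + x) = l - l₀ := by abel
        rw [this]
        exact M.sub_mem l.2 l₀.2
    · push Not at hex
      have : ∑' l : M, D.indicator (1 : E → ℝ≥0∞) ((l : E) + x) = 0 := by
        rw [ENNReal.tsum_eq_zero]
        exact fun l => Set.indicator_of_notMem (hex l) _
      rw [this]
      exact zero_le

/-- **Minkowski**: nonzero elements of `M` in `s^j (K - K)` with `mod(s)^j ≤ C [Λ : M]`. -/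
theorem mink_sub (μ : Measure E) [μ.IsAddHaarMeasure] [μ.Regular] (hΛ : LRing Λ) (s : Eˣ)
    (hσ : 1 < distribHaarChar E s) {K : Set E} (hK : IsCompact K) (hK0 : μ K ≠ 0) :
    ∃ C : ℝ≥0, ∀ M : AddSubgroup E, M ≤ Λ.toAddSubgroup → M.relIndex Λ.toAddSubgroup ≠ 0 →
      ∃ j : ℕ, (distribHaarChar E s) ^ j ≤ C * ((M.relIndex Λ.toAddSubgroup : ℕ) : ℝ≥0) ∧
        ∃ m ∈ M, m ≠ 0 ∧ ∃ b ∈ K - K, m = ((s ^ j : Eˣ) : E) * b := by
  obtain ⟨ν, hν0, hνt, hB⟩ := blich_sub (μ := μ) hΛ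
  set σ := distribHaarChar E s with hσdef
  have hKt : μ K ≠ ∞ := hK.measure_lt_top.ne
  lift ν to ℝ≥0 using hνt with ν'
  obtain ⟨k, hk⟩ : ∃ k : ℝ≥0, μ K = k := ⟨(μ K).toNNReal, (ENNReal.coe_toNNReal hKt).symm⟩
  have hk0 : k ≠ 0 := by
    rintro rfl
    exact hK0 (by rw [hk]; rfl)
  refine ⟨max 1 (σ * ν' / k), fun M hM hfi => ?_⟩
  have hex : ∃ j : ℕ, ((M.relIndex Λ.toAddSubgroup : ℕ) : ℝ≥0) * ν' < σ ^ j * k := by
    obtain ⟨j, hj⟩ := pow_unbounded_of_one_lt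
      (((M.relIndex Λ.toAddSubgroup : ℕ) : ℝ≥0) * ν' / k) hσ
    refine ⟨j, ?_⟩
    rwa [div_lt_iff₀ (pos_iff_ne_zero.2 hk0)] at hj
  classical
  set j := Nat.find hex with hj
  have hj1 := Nat.find_spec hex
  rw [← hj] at hj1
  have hidx1 : (1 : ℝ≥0) ≤ ((M.relIndex Λ.toAddSubgroup : ℕ) : ℝ≥0) := by
    exact_mod_cast Nat.one_le_iff_ne_zero.2 hfi
  refine ⟨j, ?_, ?_⟩
  · rcases Nat.eq_zero_or_pos j with h0 | hpos
    · rw [h0, pow_zero]
      calc (1 : ℝ≥0) ≤ ((M.relIndex Λ.toAddSubgroup : ℕ) : ℝ≥0) := hidx1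
        _ = 1 * ((M.relIndex Λ.toAddSubgroup : ℕ) : ℝ≥0) := (one_mul _).symm
        _ ≤ _ := by gcongr; exact le_max_left _ _
    · have hlt : j - 1 < Nat.find hex := by rw [← hj]; omega
      have h2 := Nat.find_min hex hlt
      rw [not_lt] at h2
      have h3 : σ ^ j = σ * σ ^ (j - 1) := by
        conv_lhs => rw [show j = (j - 1) + 1 by omega, pow_succ, mul_comm]
      have h4 : σ ^ (j - 1) ≤ ((M.relIndex Λ.toAddSubgroup : ℕ) : ℝ≥0) * ν' / k := by
        rwa [le_div_iff₀ (pos_iff_ne_zero.2 hk0)]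
      calc σ ^ j = σ * σ ^ (j - 1) := h3
        _ ≤ σ * (((M.relIndex Λ.toAddSubgroup : ℕ) : ℝ≥0) * ν' / k) := by gcongr
        _ = σ * ν' / k * ((M.relIndex Λ.toAddSubgroup : ℕ) : ℝ≥0) := by ring
        _ ≤ _ := by gcongr; exact le_max_right _ _
  · have hD : IsCompact ((fun y => ((s ^ j : Eˣ) : E) * y) '' K) :=
      hK.image (continuous_const.mul continuous_id)
    have hlt : ((M.relIndex Λ.toAddSubgroup : ℕ) : ℝ≥0∞) * (ν' : ℝ≥0∞)
        < μ ((fun y => ((s ^ j : Eˣ) : E) * y) '' K) := by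
      rw [measure_pow_mul, hk]
      exact_mod_cast hj1
    obtain ⟨_, ⟨x, hx, rfl⟩, _, ⟨y, hy, rfl⟩, hne, hmem⟩ := hB M hM hfi _ hD.measurableSet hlt
    refine ⟨_, hmem, sub_ne_zero.2 hne, x - y, Set.sub_mem_sub hx hy, ?_⟩
    simp only
    rw [mul_sub]

end Vale.Agent.P011.H966
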