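import Vale.Agent.P011.H966.PosAbs

/-!
# Positivity for `G × M` : weights `W(v) = ∑_{M ∈ I, v M ∈ I} ω(M)` and autocorrelations
-/

namespace Vale.Agent.P011.H966

open MeasureTheory ENNReal

variable {L G M : Type*} [Group L] [Countable L] [MeasurableSpace G] [MulAction L G]
  [MeasurableConstSMul L G] [MulAction L M] [Countable M]

/-- autocorrelation of `κ` along `v`. -/
noncomputable def autoc (μ : Measure G) (κ : G → ℝ≥0∞) (v : L) : ℝ≥0∞ :=
  ∫⁻ h, κ h * κ (v • h) ∂μ

/-- the weight `W(v) = ∑_{M ∈ I, v M ∈ I} ω(M)`. -/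
noncomputable def wt (ω : M → ℝ≥0∞) (I : Set M) (v : L) : ℝ≥0∞ :=
  ∑' m : M, ω m * (I.indicator 1 m * I.indicator 1 (v • m))

/-- **Positivity.** `L₀` normal of finite index in `L` :
`∑_{v ∈ L} W(v) κ₂(v) ≤ [L : L₀] * ∑_{v ∈ L₀} W(v) κ₂(v)`. -/
theorem pos_prod (μ : Measure G) [SFinite μ] [SMulInvariantMeasure L G μ]
    (L₀ : Subgroup L) [L₀.Normal] [L₀.FiniteIndex] {κ : G → ℝ≥0∞} (hκ : Measurable κ)
    (ω : M → ℝ≥0∞) (hω : ∀ (v : L) m, ω (v • m) = ω m) (hωt : ∀ m, ω m ≠ ∞) (I : Set M) :
    ∑' v : L, wt ω I v * autoc μ κ v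
      ≤ L₀.index * ∑' v : L₀, wt ω I (v : L) * autoc μ κ (v : L) := by
  let _ : MeasurableSpace M := ⊤
  have : MeasurableSingletonClass M := ⟨fun _ => trivial⟩
  have : MeasurableConstSMul L M := ⟨fun _ => measurable_from_top⟩
  set ν : Measure M := Measure.sum fun m => ω m • Measure.dirac m with hν
  have : ∀ m, IsFiniteMeasure (ω m • Measure.dirac m : Measure M) := fun m =>
    ⟨by
      rw [Measure.smul_apply, smul_eq_mul]
      exact ENNReal.mul_lt_top (lt_top_iff_ne_top.2 (hωt m)) (by simp)⟩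
  have : SFinite ν := by rw [hν]; infer_instance
  have hlin : ∀ g : M → ℝ≥0∞, ∫⁻ m, g m ∂ν = ∑' m, ω m * g m := by
    intro g
    rw [hν, lintegral_sum_measure]
    refine tsum_congr fun m => ?_
    rw [lintegral_smul_measure, lintegral_dirac, smul_eq_mul]
  have : SMulInvariantMeasure L M ν := by
    refine ⟨fun v s _ => ?_⟩
    rw [← lintegral_indicator_one (MeasurableSet.of_discrete),
      ← lintegral_indicator_one (MeasurableSet.of_discrete (s := s)), hlin, hlin,
      ← (MulAction.toPerm v).tsum_eq (fun m => ω m * s.indicator 1 m)]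
    refine tsum_congr fun m => ?_
    simp only [MulAction.toPerm_apply, hω]
    rfl
  have : MeasurableConstSMul L (G × M) :=
    ⟨fun v => (measurable_const_smul v).prodMap (measurable_const_smul v)⟩
  have : SMulInvariantMeasure L (G × M) (μ.prod ν) := by
    refine ⟨fun v s hs => ?_⟩
    have := (measurePreserving_smul v μ).prod (measurePreserving_smul v ν)
    exact this.measure_preimage hs.nullMeasurableSet
  have hI : ∀ s : Set M, Measurable (s.indicator (1 : M → ℝ≥0∞)) := fun _ => measurable_from_top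
  set f : G × M → ℝ≥0∞ := fun p => κ p.1 * I.indicator 1 p.2 with hf
  have hfm : Measurable f := (hκ.comp measurable_fst).mul ((hI I).comp measurable_snd)
  have hterm : ∀ v : L, ∫⁻ p, f p * f (v • p) ∂(μ.prod ν) = wt ω I v * autoc μ κ v := by
    intro v
    have hm : Measurable (fun p : G × M => f p * f (v • p)) :=
      hfm.mul (hfm.comp (measurable_const_smul v))
    rw [lintegral_prod_symm' _ hm, hlin]
    unfold wt
    rw [← ENNReal.tsum_mul_right]
    refine tsum_congr fun m => ?_
    have : ∫⁻ h, f (h, m) * f (v • (h, m)) ∂μ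
        = ∫⁻ h, (I.indicator 1 m * I.indicator 1 (v • m)) * (κ h * κ (v • h)) ∂μ := by
      refine lintegral_congr fun h => ?_
      simp only [hf, Prod.smul_mk]
      ring
    have hk2 : Measurable (fun h => κ h * κ (v • h)) :=
      hκ.mul (hκ.comp (measurable_const_smul v))
    rw [this, lintegral_const_mul _ hk2]
    unfold autoc
    ring
  have key := pos_abs (μ := μ.prod ν) L₀ hfm
  have e1 : ∫⁻ x, f x * ∑' v : L, f (v • x) ∂(μ.prod ν) = ∑' v : L, wt ω I v * autoc μ κ v := by
    rw [← tsum_congr hterm, ← lintegral_tsum]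
    · refine lintegral_congr fun x => ?_
      rw [ENNReal.tsum_mul_left]
    · intro v
      exact (hfm.mul (hfm.comp (measurable_const_smul v))).aemeasurable
  have e2 : ∫⁻ x, f x * ∑' v : L₀, f ((v : L) • x) ∂(μ.prod ν)
      = ∑' v : L₀, wt ω I (v : L) * autoc μ κ (v : L) := by
    rw [← tsum_congr (fun v : L₀ => hterm (v : L)), ← lintegral_tsum]
    · refine lintegral_congr fun x => ?_
      rw [ENNReal.tsum_mul_left]
    · intro v
      exact (hfm.mul (hfm.comp (measurable_const_smul (v : L)))).aemeasurable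
  rw [e1, e2] at key
  exact key

end Vale.Agent.P011.H966
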