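import Vale.Agent.P011.H966.PosMink

/-!
# Uniform comparison and finiteness of the zeta functions, final positivity theorem
-/

namespace Vale.Agent.P011.H966

open MeasureTheory ENNReal Filter Topology Set
open scoped NNReal Pointwise

open Vale.Agent.P011.H699 (colon den mem_colon colon_le LRing Latt lintegral_le_of_weights
  tsum_weight_sub exists_weight index_mul_mod finite_mul_index)

section Ann

variable {E : Type*} [Ring E] {Λ : Subring E}

theorem exists_ann_aux {w : E} (hw : w ∈ Λ) (hwc : ∀ e : E, w * e = e * w)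
    (hwd : ∀ i j : ℕ, i < j → IsUnit (w ^ j - w ^ i)) (F : Finset (ℕ × ℕ))
    (hF : ∀ p ∈ F, p.1 < p.2) :
    ∃ z : Eˣ, (z : E) ∈ Λ ∧ (∀ e : E, (z : E) * e = e * z) ∧
      ∀ p ∈ F, ∃ z' ∈ Λ, (z : E) = (w ^ p.2 - w ^ p.1) * z' := by
  classical
  have hpow : ∀ (n : ℕ) (e : E), w ^ n * e = e * w ^ n := fun n e =>
    ((show Commute w e from hwc e).pow_left n).eq
  have hcen : ∀ (i j : ℕ) (e : E), (w ^ j - w ^ i) * e = e * (w ^ j - w ^ i) := by
    intro i j e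
    rw [sub_mul, mul_sub, hpow, hpow]
  have hmem : ∀ i j : ℕ, w ^ j - w ^ i ∈ Λ := fun i j =>
    Λ.sub_mem (Λ.pow_mem hw j) (Λ.pow_mem hw i)
  induction F using Finset.induction_on with
  | empty => exact ⟨1, Λ.one_mem, fun e => by simp, fun p hp => absurd hp (by simp)⟩
  | insert a s ha ih =>
    obtain ⟨z, hz, hzc, hzF⟩ := ih fun p hp => hF p (Finset.mem_insert_of_mem hp)
    obtain ⟨y, hy⟩ := hwd a.1 a.2 (hF a (Finset.mem_insert_self a s))
    refine ⟨y * z, ?_, ?_, ?_⟩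
    · rw [Units.val_mul, hy]
      exact Λ.mul_mem (hmem _ _) hz
    · intro e
      rw [Units.val_mul, hy, mul_assoc, hzc, ← mul_assoc, hcen, mul_assoc]
    · intro p hp
      rcases Finset.mem_insert.1 hp with rfl | hp
      · exact ⟨z, hz, by rw [Units.val_mul, hy]⟩
      · obtain ⟨z', hz', he⟩ := hzF p hp
        refine ⟨(w ^ a.2 - w ^ a.1) * z', Λ.mul_mem (hmem _ _) hz', ?_⟩
        rw [Units.val_mul, hy, he, ← mul_assoc, ← mul_assoc, hcen]

/-- **Annihilators**: a central unit `z` with `z I ≤ J` for right modules `J ≤ I` of index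
`≤ N`. -/
theorem exists_ann {w : E} (hw : w ∈ Λ) (hwc : ∀ e : E, w * e = e * w)
    (hwd : ∀ i j : ℕ, i < j → IsUnit (w ^ j - w ^ i)) (N : ℕ) :
    ∃ z : Eˣ, (z : E) ∈ Λ ∧ (∀ e : E, (z : E) * e = e * z) ∧
      ∀ I J : AddSubgroup E, IsRM Λ I → IsRM Λ J → J.relIndex I ≠ 0 → J.relIndex I ≤ N →
        tr z I ≤ J := by
  classical
  obtain ⟨z, hz, hzc, hzF⟩ := exists_ann_aux hw hwc hwd
    ((Finset.range (N + 1) ×ˢ Finset.range (N + 1)).filter fun p => p.1 < p.2)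
    (fun p hp => (Finset.mem_filter.1 hp).2)
  refine ⟨z, hz, hzc, fun I J hI hJ h0 hN y hy => ?_⟩
  obtain ⟨x, hx, rfl⟩ := mem_tr.1 hy
  rw [hzc]
  have hfin : Finite (I ⧸ J.addSubgroupOf I) := by
    have : (J.addSubgroupOf I).FiniteIndex := ⟨h0⟩
    infer_instance
  have hfty : Fintype (I ⧸ J.addSubgroupOf I) := Fintype.ofFinite _
  have hcard : Fintype.card (I ⧸ J.addSubgroupOf I) ≤ N := by
    rw [← Nat.card_eq_fintype_card]
    exact hN
  obtain ⟨i, j, hij, he⟩ := Fintype.exists_ne_map_eq_of_card_lt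
    (fun i : Fin (N + 1) => ((⟨x * w ^ (i : ℕ), hI x hx _ (Λ.pow_mem hw _)⟩ : I) :
      I ⧸ J.addSubgroupOf I)) (by rw [Fintype.card_fin]; omega)
  have key : ∀ i j : Fin (N + 1), (i : ℕ) < j →
      ((⟨x * w ^ (i : ℕ), hI x hx _ (Λ.pow_mem hw _)⟩ : I) : I ⧸ J.addSubgroupOf I)
        = ((⟨x * w ^ (j : ℕ), hI x hx _ (Λ.pow_mem hw _)⟩ : I) : I ⧸ J.addSubgroupOf I) →
      x * (z : E) ∈ J := by
    intro i j hlt he
    rw [QuotientAddGroup.eq, AddSubgroup.mem_addSubgroupOf] at he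
    have h1 : x * (w ^ (j : ℕ) - w ^ (i : ℕ)) ∈ J := by
      have : x * (w ^ (j : ℕ) - w ^ (i : ℕ)) = -(x * w ^ (i : ℕ)) + x * w ^ (j : ℕ) := by
        rw [mul_sub]; abel
      rw [this]
      exact he
    obtain ⟨z', hz', hze⟩ := hzF ((i : ℕ), (j : ℕ)) (by
      rw [Finset.mem_filter, Finset.mem_product, Finset.mem_range, Finset.mem_range]
      exact ⟨⟨i.2, j.2⟩, hlt⟩)
    rw [hze, ← mul_assoc]
    exact hJ _ h1 _ hz'
  rcases lt_or_gt_of_ne (fun h => hij (Fin.ext h) : (i : ℕ) ≠ j) with h | h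
  · exact key i j h he
  · exact key j i h he.symm

end Ann

variable {E : Type*} [Ring E] [TopologicalSpace E] [IsTopologicalRing E] [T2Space E]
  [LocallyCompactSpace E] [MeasurableSpace E] [BorelSpace E] {Λ : Subring E}

omit [T2Space E] [LocallyCompactSpace E] [MeasurableSpace E] [BorelSpace E] in
theorem isCompact_sub {K K' : Set E} (hK : IsCompact K) (hK' : IsCompact K') :
    IsCompact (K - K') := by
  rw [← Set.sub_image_prod]
  exact (hK.prod hK').image continuous_sub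

omit [T2Space E] in
/-- the module is bounded on compact sets -/
theorem mod_le (μ : Measure E) [μ.IsAddHaarMeasure] [μ.Regular] {K₁ : Set E}
    (hK₁ : IsCompact K₁) :
    ∃ C : ℝ≥0, ∀ u : Eˣ, (u : E) ∈ K₁ → distribHaarChar E u ≤ C := by
  obtain ⟨V, hV, hV0⟩ := exists_compact_mem_nhds (0 : E)
  have hVpos : μ V ≠ 0 := (Measure.measure_pos_of_mem_nhds μ hV0).ne'
  have hVt : μ V ≠ ∞ := hV.measure_lt_top.ne
  have hKV : μ (K₁ * V) ≠ ∞ := (hK₁.mul hV).measure_lt_top.ne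
  refine ⟨(μ (K₁ * V) / μ V).toNNReal, fun u hu => ?_⟩
  have h1 : (distribHaarChar E u : ℝ≥0∞) * μ V ≤ μ (K₁ * V) := by
    rw [distribHaarChar_mul μ u V]
    refine measure_mono ?_
    rintro _ ⟨v, hv, rfl⟩
    exact Set.mul_mem_mul hu hv
  have h2 : (distribHaarChar E u : ℝ≥0∞) ≤ μ (K₁ * V) / μ V := by
    rwa [ENNReal.le_div_iff_mul_le (Or.inl hVpos) (Or.inl hVt)]
  rw [← ENNReal.coe_le_coe, ENNReal.coe_toNNReal]
  · exact h2
  · exact (ENNReal.div_lt_top hKV hVpos).ne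

/-- **Uniform Minkowski**: every right module of finite index contains `m Λ`, `m` a unit of `E`
of the box `s ^ j (K - K)`, with bounded index. -/
theorem mink_unif (μ : Measure E) [μ.IsAddHaarMeasure] [μ.Regular] (hΛ : LRing Λ)
    (hunit : ∀ a ∈ Λ, a ≠ 0 → IsUnit a) (s : Eˣ)
    (hσ : 1 < distribHaarChar E s) {K : Set E} (hK : IsCompact K) (hK0 : μ K ≠ 0) :
    ∃ (C₁ : ℝ≥0) (N : ℕ), ∀ M : AddSubgroup E, IsRM Λ M → M ≤ Λ.toAddSubgroup →
      M.relIndex Λ.toAddSubgroup ≠ 0 →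
      ∃ (j : ℕ) (m : Eˣ), (distribHaarChar E s) ^ j ≤ C₁ * ((M.relIndex Λ.toAddSubgroup : ℕ) : ℝ≥0)
        ∧ (m : E) ∈ M ∧ tr m Λ.toAddSubgroup ≤ M ∧ (tr m Λ.toAddSubgroup).relIndex M ≠ 0 ∧
        (tr m Λ.toAddSubgroup).relIndex M ≤ N ∧
        ∃ b ∈ K - K, (m : E) = ((s ^ j : Eˣ) : E) * b := by
  obtain ⟨C₁, hC₁⟩ := mink_sub μ hΛ s hσ hK hK0
  obtain ⟨C₂, hC₂⟩ := mod_le μ (isCompact_sub hK hK)
  refine ⟨C₁, ⌈C₁ * C₂⌉₊, fun M hM hle hfi => ?_⟩
  obtain ⟨j, hj, m, hm, hm0, b, hb, hmb⟩ := hC₁ M hle hfi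
  obtain ⟨m', rfl⟩ := hunit m (hle hm) hm0
  have htr : tr m' Λ.toAddSubgroup ≤ M := by
    intro y hy
    obtain ⟨x, hx, rfl⟩ := mem_tr.1 hy
    exact hM _ hm _ hx
  have hΛ0 := relIndex_tr_ne_zero hΛ m' (hle hm)
  have hmul := AddSubgroup.relIndex_mul_relIndex _ _ _ htr hle
  have h0 : (tr m' Λ.toAddSubgroup).relIndex M ≠ 0 := by
    intro h
    rw [h, zero_mul] at hmul
    exact hΛ0 hmul.symm
  refine ⟨j, m', hj, hm, htr, h0, ?_, b, hb, hmb⟩
  -- the module of `m'`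
  set u : Eˣ := (s ^ j)⁻¹ * m' with hu
  have hub : (u : E) = b := by
    rw [hu, Units.val_mul, hmb, ← mul_assoc, Units.inv_mul, one_mul]
  have hmod : distribHaarChar E m' ≤ distribHaarChar E s ^ j * C₂ := by
    have h1 : m' = s ^ j * u := by rw [hu, mul_inv_cancel_left]
    rw [h1, map_mul, map_pow]
    gcongr
    exact hC₂ u (by rw [hub]; exact hb)
  have hself := relIndex_tr_self hΛ m' (hle hm)
  have hfi' : (0 : ℝ≥0) < ((M.relIndex Λ.toAddSubgroup : ℕ) : ℝ≥0) := by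
    exact_mod_cast Nat.pos_of_ne_zero hfi
  have hreal : (((tr m' Λ.toAddSubgroup).relIndex M : ℕ) : ℝ≥0) ≤ C₁ * C₂ := by
    have h2 : (((tr m' Λ.toAddSubgroup).relIndex M : ℕ) : ℝ≥0)
        * ((M.relIndex Λ.toAddSubgroup : ℕ) : ℝ≥0) ≤ C₁ * C₂
        * ((M.relIndex Λ.toAddSubgroup : ℕ) : ℝ≥0) := by
      calc _ = (((tr m' Λ.toAddSubgroup).relIndex Λ.toAddSubgroup : ℕ) : ℝ≥0) := by
            exact_mod_cast hmul
        _ = distribHaarChar E m' := hself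
        _ ≤ distribHaarChar E s ^ j * C₂ := hmod
        _ ≤ C₁ * ((M.relIndex Λ.toAddSubgroup : ℕ) : ℝ≥0) * C₂ := by gcongr
        _ = _ := by ring
    exact le_of_mul_le_mul_right h2 hfi'
  exact_mod_cast hreal.trans (Nat.le_ceil (C₁ * C₂))

/-- every right module of finite index contains `m Λ` with `m` a unit -/
theorem exists_unit_mem (hΛ : LRing Λ) (hunit : ∀ a ∈ Λ, a ≠ 0 → IsUnit a) (s : Eˣ)
    (hσ : 1 < distribHaarChar E s) {M : AddSubgroup E} (hle : M ≤ Λ.toAddSubgroup)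
    (hfi : M.relIndex Λ.toAddSubgroup ≠ 0) : ∃ m : Eˣ, (m : E) ∈ M := by
  obtain ⟨V, hV, hV0⟩ := exists_compact_mem_nhds (0 : E)
  have hVpos : (Measure.addHaar : Measure E) V ≠ 0 :=
    (Measure.measure_pos_of_mem_nhds _ hV0).ne'
  obtain ⟨C, hC⟩ := mink_sub (Measure.addHaar : Measure E) hΛ s hσ hV hVpos
  obtain ⟨-, -, m, hm, hm0, -⟩ := hC M hle hfi
  obtain ⟨m', rfl⟩ := hunit m (hle hm) hm0
  exact ⟨m', hm⟩

theorem countable_sub (hΛ : LRing Λ) (hunit : ∀ a ∈ Λ, a ≠ 0 → IsUnit a) (s : Eˣ)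
    (hσ : 1 < distribHaarChar E s) : Countable (Sub Λ Λ.toAddSubgroup) := by
  have hc := hΛ.countable
  have h1 : {M : AddSubgroup E | M ≤ Λ.toAddSubgroup ∧ M.relIndex Λ.toAddSubgroup ≠ 0 ∧
      IsRM Λ M} ⊆ ⋃ m : Λ, {M : AddSubgroup E | IsUnit (m : E) ∧
        (Λ.toAddSubgroup.map (AddMonoidHom.mulLeft (m : E))) ≤ M ∧ M ≤ Λ.toAddSubgroup} := by
    rintro M ⟨h1, h2, h3⟩
    obtain ⟨m, hm⟩ := exists_unit_mem hΛ hunit s hσ h1 h2
    refine Set.mem_iUnion.2 ⟨⟨m, h1 hm⟩, m.isUnit, ?_, h1⟩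
    rintro y ⟨x, hx, rfl⟩
    exact h3 _ hm _ hx
  have h2 : (⋃ m : Λ, {M : AddSubgroup E | IsUnit (m : E) ∧
        (Λ.toAddSubgroup.map (AddMonoidHom.mulLeft (m : E))) ≤ M ∧
          M ≤ Λ.toAddSubgroup}).Countable := by
    refine Set.countable_iUnion fun m => Set.Finite.countable ?_
    by_cases hu : IsUnit (m : E)
    · obtain ⟨u, hu⟩ := hu
      have h3 := relIndex_tr_ne_zero hΛ u (by rw [hu]; exact m.2)
      refine (finite_between h3).subset ?_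
      rintro M ⟨-, h4, h5⟩
      refine ⟨?_, h5⟩
      rw [tr, hu]
      exact h4
    · refine Set.Finite.subset Set.finite_empty ?_
      rintro M ⟨h4, -⟩
      exact hu h4
  exact (h2.mono h1).to_subtype

/-- the index hypothesis for `ι` with module one -/
theorem idx_of_mod {L : Type*} [Group L] (hΛ : LRing Λ) (hunit : ∀ a ∈ Λ, a ≠ 0 → IsUnit a)
    (s : Eˣ) (hσ : 1 < distribHaarChar E s) (ι : L →* Eˣ)
    (hι : ∀ v, distribHaarChar E (ι v) = 1) : Idx Λ ι where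
  fin v M hM h1 h2 h3 := by
    obtain ⟨m, hm⟩ := exists_unit_mem hΛ hunit s hσ h1 h2
    have h4 : ((ι v * m : Eˣ) : E) ∈ tr (ι v) M := mem_tr.2 ⟨m, hm, by rw [Units.val_mul]⟩
    refine finite_mul_index hΛ (h3 h4) (ι v * m).isUnit fun x hx => ?_
    exact hM.tr (ι v) _ h4 _ hx
  eq v M h1 h2 h3 h4 := by
    have := relIndex_tr_eq hΛ (ι v) h1 h2 h3 h4
    rw [hι, mul_one] at this
    exact_mod_cast this

end Vale.Agent.P011.H966
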