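import Vale.Agent.P011.H966.PosLat

/-!
# The weights of the positivity theorem

`ι : L →* Eˣ`; `Lt Λ ι` is the `L`-set of the lattices `M` (right `Λ`-modules) such that some
translate `v M` is contained in `Λ` with finite index; `om` is the weight `[Λ : v M]^(-x)`.
`wt_eq` : `W(v) = den(v)^(-x) * zeta Λ (colon Λ v) x`.
-/

namespace Vale.Agent.P011.H966

open MeasureTheory ENNReal
open scoped NNReal

open Vale.Agent.P011.H699 (colon den mem_colon colon_le)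

variable {E L : Type*} [Ring E] [Group L] {Λ : Subring E} {ι : L →* Eˣ}

/-- translations by `L` preserve finiteness and the value of the index -/
structure Idx (Λ : Subring E) (ι : L →* Eˣ) : Prop where
  fin : ∀ (v : L) (M : AddSubgroup E), IsRM Λ M → M ≤ Λ.toAddSubgroup →
    M.relIndex Λ.toAddSubgroup ≠ 0 → tr (ι v) M ≤ Λ.toAddSubgroup →
    (tr (ι v) M).relIndex Λ.toAddSubgroup ≠ 0
  eq : ∀ (v : L) (M : AddSubgroup E), M ≤ Λ.toAddSubgroup →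
    M.relIndex Λ.toAddSubgroup ≠ 0 → tr (ι v) M ≤ Λ.toAddSubgroup →
    (tr (ι v) M).relIndex Λ.toAddSubgroup ≠ 0 →
    (tr (ι v) M).relIndex Λ.toAddSubgroup = M.relIndex Λ.toAddSubgroup

/-- lattices -/
def Lt (Λ : Subring E) (ι : L →* Eˣ) : Type _ :=
  {M : AddSubgroup E // IsRM Λ M ∧ ∃ v : L, tr (ι v) M ≤ Λ.toAddSubgroup ∧
    (tr (ι v) M).relIndex Λ.toAddSubgroup ≠ 0}

instance instSMulLt : SMul L (Lt Λ ι) :=
  ⟨fun v M => ⟨tr (ι v) M.1, M.2.1.tr _, by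
    obtain ⟨w, h1, h2⟩ := M.2.2
    have e : tr (ι (w * v⁻¹)) (tr (ι v) M.1) = tr (ι w) M.1 := by
      rw [← tr_mul, ← map_mul, mul_assoc, inv_mul_cancel, mul_one]
    exact ⟨w * v⁻¹, by rwa [e], by rwa [e]⟩⟩⟩

theorem smul_val (v : L) (M : Lt Λ ι) : (v • M).1 = tr (ι v) M.1 := rfl

instance instMulActionLt : MulAction L (Lt Λ ι) where
  one_smul M := Subtype.ext (by rw [smul_val, map_one, tr_one])
  mul_smul v w M := Subtype.ext (by rw [smul_val, smul_val, smul_val, map_mul, tr_mul])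

instance instCountableLt [Countable L] [Countable (Sub Λ Λ.toAddSubgroup)] :
    Countable (Lt Λ ι) := by
  let f : Lt Λ ι → L × Sub Λ Λ.toAddSubgroup := fun M =>
    (M.2.2.choose, ⟨tr (ι M.2.2.choose) M.1, M.2.2.choose_spec.1, M.2.2.choose_spec.2,
      M.2.1.tr _⟩)
  have hf : Function.Injective f := by
    intro M N h
    have h1 : M.2.2.choose = N.2.2.choose := congrArg Prod.fst h
    have h2 : tr (ι M.2.2.choose) M.1 = tr (ι N.2.2.choose) N.1 :=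
      congrArg (fun p : L × Sub Λ Λ.toAddSubgroup => p.2.1) h
    rw [h1] at h2
    exact Subtype.ext (tr_injective _ h2)
  exact hf.countable

/-- the weight of a lattice -/
noncomputable def om (x : ℝ) (M : Lt Λ ι) : ℝ≥0∞ :=
  (((tr (ι M.2.2.choose) M.1).relIndex Λ.toAddSubgroup : ℕ) : ℝ≥0∞) ^ (-x)

theorem om_eq (h : Idx Λ ι) (x : ℝ) (M : Lt Λ ι) (w : L)
    (h1 : tr (ι w) M.1 ≤ Λ.toAddSubgroup)
    (h2 : (tr (ι w) M.1).relIndex Λ.toAddSubgroup ≠ 0) :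
    om x M = (((tr (ι w) M.1).relIndex Λ.toAddSubgroup : ℕ) : ℝ≥0∞) ^ (-x) := by
  unfold om
  set v := M.2.2.choose with hv
  have hv1 : tr (ι v) M.1 ≤ Λ.toAddSubgroup := M.2.2.choose_spec.1
  have hv2 : (tr (ι v) M.1).relIndex Λ.toAddSubgroup ≠ 0 := M.2.2.choose_spec.2
  have e : tr (ι (v * w⁻¹)) (tr (ι w) M.1) = tr (ι v) M.1 := by
    rw [← tr_mul, ← map_mul, mul_assoc, inv_mul_cancel, mul_one]
  have := h.eq (v * w⁻¹) (tr (ι w) M.1) h1 h2 (by rwa [e]) (by rwa [e])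
  rw [e] at this
  rw [this]

theorem om_smul (h : Idx Λ ι) (x : ℝ) (v : L) (M : Lt Λ ι) : om x (v • M) = om x M := by
  have hw1 : tr (ι M.2.2.choose) M.1 ≤ Λ.toAddSubgroup := M.2.2.choose_spec.1
  have hw2 : (tr (ι M.2.2.choose) M.1).relIndex Λ.toAddSubgroup ≠ 0 := M.2.2.choose_spec.2
  set w := M.2.2.choose with hw
  have e : tr (ι (w * v⁻¹)) (v • M).1 = tr (ι w) M.1 := by
    rw [smul_val, ← tr_mul, ← map_mul, mul_assoc, inv_mul_cancel, mul_one]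
  rw [om_eq h x (v • M) (w * v⁻¹) (by rwa [e]) (by rwa [e]), om_eq h x M w hw1 hw2, e]

theorem om_ne_top (x : ℝ) (M : Lt Λ ι) : om x M ≠ ∞ := by
  unfold om
  have h2 : (tr (ι M.2.2.choose) M.1).relIndex Λ.toAddSubgroup ≠ 0 := M.2.2.choose_spec.2
  intro h
  rw [ENNReal.rpow_eq_top_iff] at h
  rcases h with h | h
  · exact h2 (by exact_mod_cast h.1)
  · exact ENNReal.natCast_ne_top _ h.1

/-- the lattices contained in `Λ` with finite index -/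
def inΛ (Λ : Subring E) (ι : L →* Eˣ) : Set (Lt Λ ι) :=
  {M | M.1 ≤ Λ.toAddSubgroup ∧ M.1.relIndex Λ.toAddSubgroup ≠ 0}

/-- **The weight.** -/
theorem wt_eq (h : Idx Λ ι) (x : ℝ) (v : L) (hv : den Λ ((ι v : Eˣ) : E) ≠ 0) :
    wt (om x) (inΛ Λ ι) v
      = ((den Λ ((ι v : Eˣ) : E) : ℕ) : ℝ≥0∞) ^ (-x) * zeta Λ (colon Λ ((ι v : Eˣ) : E)) x := by
  classical
  set J := colon Λ ((ι v : Eˣ) : E) with hJ
  have hJΛ : J ≤ Λ.toAddSubgroup := colon_le _ _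
  have hJ0 : J.relIndex Λ.toAddSubgroup ≠ 0 := hv
  have hval : ∀ M : Sub Λ J, M.1 ≤ Λ.toAddSubgroup := fun M => M.2.1.trans hJΛ
  have hfi : ∀ M : Sub Λ J, M.1.relIndex Λ.toAddSubgroup ≠ 0 := fun M =>
    AddSubgroup.relIndex_ne_zero_trans M.2.2.1 hJ0
  have htr : ∀ M : Sub Λ J, tr (ι v) M.1 ≤ Λ.toAddSubgroup := by
    intro M y hy
    rw [mem_tr] at hy
    obtain ⟨z, hz, rfl⟩ := hy
    exact (mem_colon.1 (M.2.1 hz)).2
  have hid : ∀ N : AddSubgroup E, tr (ι (1 : L)) N = N := fun N => by rw [map_one, tr_one]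
  let f : Sub Λ J → Lt Λ ι := fun M =>
    ⟨M.1, M.2.2.2, 1, by rw [hid]; exact hval M, by rw [hid]; exact hfi M⟩
  have hf : Function.Injective f := fun M N hMN =>
    Subtype.ext (congrArg (fun m : Lt Λ ι => m.1) hMN)
  have hmem : ∀ M : Sub Λ J, f M ∈ inΛ Λ ι := fun M => ⟨hval M, hfi M⟩
  have hmem2 : ∀ M : Sub Λ J, v • f M ∈ inΛ Λ ι := fun M =>
    ⟨htr M, h.fin v M.1 M.2.2.2 (hval M) (hfi M) (htr M)⟩
  have hsupp : Function.support (fun m : Lt Λ ι =>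
      om x m * ((inΛ Λ ι).indicator 1 m * (inΛ Λ ι).indicator 1 (v • m))) ⊆ Set.range f := by
    intro m hm
    rw [Function.mem_support] at hm
    have h1 : m ∈ inΛ Λ ι := by
      by_contra hne
      exact hm (by rw [Set.indicator_of_notMem hne, zero_mul, mul_zero])
    have h2 : v • m ∈ inΛ Λ ι := by
      by_contra hne
      exact hm (by rw [Set.indicator_of_notMem hne, mul_zero, mul_zero])
    have h3 : m.1 ≤ J := by
      intro y hy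
      exact mem_colon.2 ⟨h1.1 hy, h2.1 ⟨y, hy, rfl⟩⟩
    have h4 : m.1.relIndex J ≠ 0 := by
      intro h0
      have := AddSubgroup.relIndex_mul_relIndex _ _ _ h3 hJΛ
      rw [h0, zero_mul] at this
      exact h1.2 this.symm
    exact ⟨⟨m.1, h3, h4, m.2.1⟩, Subtype.ext rfl⟩
  unfold wt
  rw [← hf.tsum_eq hsupp, zeta, ← ENNReal.tsum_mul_left]
  refine tsum_congr fun M => ?_
  rw [Set.indicator_of_mem (hmem M), Set.indicator_of_mem (hmem2 M), Pi.one_apply, Pi.one_apply,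
    mul_one, mul_one, om_eq h x (f M) 1 (by rw [hid]; exact hval M) (by rw [hid]; exact hfi M),
    hid]
  change ((M.1.relIndex Λ.toAddSubgroup : ℕ) : ℝ≥0∞) ^ (-x) = _
  rw [← AddSubgroup.relIndex_mul_relIndex _ _ _ M.2.1 hJΛ, Nat.cast_mul,
    ENNReal.mul_rpow_of_ne_zero (by exact_mod_cast M.2.2.1) (by exact_mod_cast hJ0), mul_comm]
  rfl

theorem one_le_zeta (Λ : Subring E) (x : ℝ) : 1 ≤ zeta Λ Λ.toAddSubgroup x := by
  let M : Sub Λ Λ.toAddSubgroup :=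
    ⟨Λ.toAddSubgroup, le_rfl, by rw [AddSubgroup.relIndex_self]; exact one_ne_zero, isRM_self Λ⟩
  have := ENNReal.le_tsum (f := fun M : Sub Λ Λ.toAddSubgroup =>
    ((M.1.relIndex Λ.toAddSubgroup : ℕ) : ℝ≥0∞) ^ (-x)) M
  refine le_trans (le_of_eq ?_) this
  change _ = ((Λ.toAddSubgroup.relIndex Λ.toAddSubgroup : ℕ) : ℝ≥0∞) ^ (-x)
  rw [AddSubgroup.relIndex_self, Nat.cast_one, ENNReal.one_rpow]

/-- **Positivity for the weights `den(v)^(-x)`**, given the comparison of the zeta functions. -/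
theorem pos_den {G : Type*} [Countable L] [MeasurableSpace G] [MulAction L G]
    [MeasurableConstSMul L G] (h : Idx Λ ι) (hden : ∀ v : L, den Λ ((ι v : Eˣ) : E) ≠ 0)
    [Countable (Sub Λ Λ.toAddSubgroup)] {x : ℝ} {A B : ℝ≥0∞}
    (hζ : zeta Λ Λ.toAddSubgroup x ≠ ∞)
    (hlo : ∀ v : L, zeta Λ Λ.toAddSubgroup x ≤ A * zeta Λ (colon Λ ((ι v : Eˣ) : E)) x)
    (hup : ∀ v : L, zeta Λ (colon Λ ((ι v : Eˣ) : E)) x ≤ B * zeta Λ Λ.toAddSubgroup x)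
    (μ : Measure G) [SFinite μ] [SMulInvariantMeasure L G μ]
    (L₀ : Subgroup L) [L₀.Normal] [L₀.FiniteIndex] {κ : G → ℝ≥0∞} (hκ : Measurable κ) :
    ∑' v : L, ((den Λ ((ι v : Eˣ) : E) : ℕ) : ℝ≥0∞) ^ (-x) * autoc μ κ v
      ≤ A * B * L₀.index *
        ∑' v : L₀, ((den Λ ((ι (v : L) : Eˣ) : E) : ℕ) : ℝ≥0∞) ^ (-x) * autoc μ κ (v : L) := by
  have key := pos_prod μ L₀ hκ (om x) (fun v m => om_smul h x v m) (fun m => om_ne_top x m)
    (inΛ Λ ι)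
  simp_rw [wt_eq h x _ (hden _)] at key
  set Z := zeta Λ Λ.toAddSubgroup x with hZ
  have hZ0 : Z ≠ 0 := (lt_of_lt_of_le one_pos (one_le_zeta Λ x)).ne'
  have h1 : Z * ∑' v : L, ((den Λ ((ι v : Eˣ) : E) : ℕ) : ℝ≥0∞) ^ (-x) * autoc μ κ v
      ≤ A * ∑' v : L, ((den Λ ((ι v : Eˣ) : E) : ℕ) : ℝ≥0∞) ^ (-x)
        * zeta Λ (colon Λ ((ι v : Eˣ) : E)) x * autoc μ κ v := by
    rw [← ENNReal.tsum_mul_left, ← ENNReal.tsum_mul_left]
    refine ENNReal.tsum_le_tsum fun v => ?_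
    calc Z * (((den Λ ((ι v : Eˣ) : E) : ℕ) : ℝ≥0∞) ^ (-x) * autoc μ κ v)
        = ((den Λ ((ι v : Eˣ) : E) : ℕ) : ℝ≥0∞) ^ (-x) * Z * autoc μ κ v := by ring
      _ ≤ ((den Λ ((ι v : Eˣ) : E) : ℕ) : ℝ≥0∞) ^ (-x)
          * (A * zeta Λ (colon Λ ((ι v : Eˣ) : E)) x) * autoc μ κ v := by
          gcongr; exact hlo v
      _ = _ := by ring
  have h2 : ∑' v : L₀, ((den Λ ((ι (v : L) : Eˣ) : E) : ℕ) : ℝ≥0∞) ^ (-x)
        * zeta Λ (colon Λ ((ι (v : L) : Eˣ) : E)) x * autoc μ κ (v : L)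
      ≤ B * Z * ∑' v : L₀, ((den Λ ((ι (v : L) : Eˣ) : E) : ℕ) : ℝ≥0∞) ^ (-x)
        * autoc μ κ (v : L) := by
    rw [← ENNReal.tsum_mul_left]
    refine ENNReal.tsum_le_tsum fun v => ?_
    calc ((den Λ ((ι (v : L) : Eˣ) : E) : ℕ) : ℝ≥0∞) ^ (-x)
          * zeta Λ (colon Λ ((ι (v : L) : Eˣ) : E)) x * autoc μ κ (v : L)
        ≤ ((den Λ ((ι (v : L) : Eˣ) : E) : ℕ) : ℝ≥0∞) ^ (-x) * (B * Z)
          * autoc μ κ (v : L) := by
          gcongr; exact hup v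
      _ = _ := by ring
  have h3 : Z * ∑' v : L, ((den Λ ((ι v : Eˣ) : E) : ℕ) : ℝ≥0∞) ^ (-x) * autoc μ κ v
      ≤ Z * (A * B * L₀.index *
        ∑' v : L₀, ((den Λ ((ι (v : L) : Eˣ) : E) : ℕ) : ℝ≥0∞) ^ (-x)
          * autoc μ κ (v : L)) := by
    refine h1.trans ?_
    calc _ ≤ A * (L₀.index * ∑' v : L₀, ((den Λ ((ι (v : L) : Eˣ) : E) : ℕ) : ℝ≥0∞) ^ (-x)
        * zeta Λ (colon Λ ((ι (v : L) : Eˣ) : E)) x * autoc μ κ (v : L)) := by gcongr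
      _ ≤ A * (L₀.index * (B * Z * ∑' v : L₀,
          ((den Λ ((ι (v : L) : Eˣ) : E) : ℕ) : ℝ≥0∞) ^ (-x) * autoc μ κ (v : L))) := by
          gcongr
      _ = _ := by ring
  exact (ENNReal.mul_le_mul_iff_right hZ0 hζ).1 h3

end Vale.Agent.P011.H966
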